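import Vale.Agent.P307.R2.H541.Ext

/-!
Chains of models in a homogeneous structure and prime chains.
-/

set_option linter.unusedSectionVars false

universe u

open Set Cardinal Function

namespace Vale.Agent.P307.R2.H650

open Vale.Agent.P307.R2.H541 Vale.Agent.P307.R2.H541.PG

variable {C : Type u}

/-- Chains of models: unions, coherent maps, and local character of independence for finite
sets. -/
structure Chn (M : PG C) : Prop where
  union : ∀ (ι : Type u) [LinearOrder ι] [Nonempty ι] (N : ι → Set C), Monotone N →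
    (∀ i, N i ∈ M.S) → #(⋃ i, N i : Set C) ≤ M.χ → (⋃ i, N i) ∈ M.S
  glue : ∀ (ι : Type u) [LinearOrder ι] [Nonempty ι] (N : ι → Set C) (g : ι → Equiv.Perm C),
    Monotone N → (∀ i, N i ∈ M.S) → #(⋃ i, N i : Set C) ≤ M.χ → (∀ i, g i ∈ M.G) →
      (∀ i j, i ≤ j → ∀ a ∈ N i, g j a = g i a) → ∃ h ∈ M.G, ∀ i, ∀ a ∈ N i, h a = g i a
  loc : ∀ (ι : Type u) [LinearOrder ι] [Nonempty ι] (N : ι → Set C), Monotone N →
    (∀ i, N i ∈ M.S) → #(⋃ i, N i : Set C) ≤ M.χ → ∀ x : Set C, x.Finite →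
      ∃ i, M.Ind (N i) x (⋃ i, N i)

/-- Free copies of models. -/
def FreeM (M : PG C) : Prop := ∀ P ∈ M.S, ∀ R ∈ M.S, P ⊆ R → ∀ Z : Set C, #Z ≤ M.χ →
  ∃ g ∈ M.G, (∀ a ∈ P, g a = a) ∧ M.Ind P (g '' R) Z

/-- Atomic models over a model and an independent one-point extension. -/
def Pt1 (M : PG C) : Prop := ∀ P ∈ M.S, ∀ Q ∈ M.S, P ⊆ Q → ∀ (c : C) (N : Set C),
  M.Ind P {c} Q → M.Atomic N ({c} ∪ P) → ∃ N', M.Atomic N' (Q ∪ N)

/-- The part of a chain before `i`. -/
def pre (P : Set C) {ι : Type u} [LinearOrder ι] (Q : ι → Set C) (i : ι) : Set C :=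
  P ∪ ⋃ j : Iio i, Q j

/-- The whole chain. -/
def tot (P : Set C) {ι : Type u} (Q : ι → Set C) : Set C := P ∪ ⋃ j, Q j

/-- A prime chain: the point `c i` is free over `P` from the part before `i`, and `Q i` is atomic
over this part and the point. -/
structure PCh (M : PG C) (P : Set C) {ι : Type u} [LinearOrder ι] (c : ι → C)
    (Q : ι → Set C) : Prop where
  base : P ∈ M.S
  ind : ∀ i, M.Ind P {c i} (pre P Q i)
  atomic : ∀ i, M.Atomic (Q i) ({c i} ∪ pre P Q i)

variable {M : PG C} {P : Set C} {ι : Type u} [LinearOrder ι] {c : ι → C} {Q : ι → Set C}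

theorem subset_pre (P : Set C) (Q : ι → Set C) (i : ι) : P ⊆ pre P Q i := subset_union_left

theorem sub_pre (P : Set C) (Q : ι → Set C) {j i : ι} (h : j < i) : Q j ⊆ pre P Q i :=
  (subset_iUnion (fun j : Iio i => Q j) ⟨j, h⟩).trans subset_union_right

theorem pre_sub_tot (P : Set C) (Q : ι → Set C) (i : ι) : pre P Q i ⊆ tot P Q :=
  union_subset_union_right P (iUnion_subset fun j => subset_iUnion Q j)

theorem sub_tot (P : Set C) (Q : ι → Set C) (i : ι) : Q i ⊆ tot P Q :=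
  (subset_iUnion Q i).trans subset_union_right

theorem subset_tot (P : Set C) (Q : ι → Set C) : P ⊆ tot P Q := subset_union_left

theorem PCh.pre_sub (h : PCh M P c Q) (i : ι) : pre P Q i ⊆ Q i :=
  subset_union_right.trans (h.atomic i).sub

theorem PCh.mem (h : PCh M P c Q) (i : ι) : c i ∈ Q i := (h.atomic i).sub (Or.inl rfl)

theorem PCh.mono (h : PCh M P c Q) : Monotone Q := by
  intro i j hij
  rcases hij.lt_or_eq with h1 | h1
  · exact (sub_pre P Q h1).trans (h.pre_sub j)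
  · rw [h1]

/-- Unions of chains over a base. -/
theorem Chn.union' (hC : Chn M) (hP : P ∈ M.S) {κ : Type u} [LinearOrder κ] {N : κ → Set C}
    (hN : Monotone N) (hNS : ∀ i, N i ∈ M.S) (hPN : ∀ i, P ⊆ N i)
    (hc : #(P ∪ ⋃ i, N i : Set C) ≤ M.χ) : (P ∪ ⋃ i, N i) ∈ M.S := by
  rcases isEmpty_or_nonempty κ with hE | hE
  · rw [iUnion_of_empty, union_empty]
    exact hP
  · have h1 : (P ∪ ⋃ i, N i) = ⋃ i, N i := by
      obtain ⟨i⟩ := hE
      exact union_eq_self_of_subset_left ((hPN i).trans (subset_iUnion N i))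
    rw [h1] at hc ⊢
    exact hC.union κ N hN hNS hc

theorem PCh.tot_mem (h : PCh M P c Q) (hC : Chn M) (hc : #(tot P Q) ≤ M.χ) : tot P Q ∈ M.S :=
  hC.union' h.base h.mono (fun i => (h.atomic i).mem)
    (fun i => (subset_pre P Q i).trans (h.pre_sub i)) hc

theorem PCh.pre_mem (h : PCh M P c Q) (hC : Chn M) (hc : #(tot P Q) ≤ M.χ) (i : ι) :
    pre P Q i ∈ M.S :=
  hC.union' (N := fun j : Iio i => Q j) h.base (fun _ _ hjk => h.mono hjk)
    (fun j => (h.atomic j).mem) (fun j => (subset_pre P Q j).trans (h.pre_sub j))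
    ((mk_le_mk_of_subset (pre_sub_tot P Q i)).trans hc)

end Vale.Agent.P307.R2.H650
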