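import Vale.Agent.P307.R2.H229.Tree
import Vale.Agent.P307.R2.H650.Defs

/-!
The decomposition of an extension of models into a sequence of maximal prime chains.
-/

universe u

open Set Cardinal Function

namespace Vale.Agent.P307.R2.H650

open Vale.Agent.P307.R2.H541 Vale.Agent.P307.R2.H541.PG

variable {C : Type u} {M : PG C} {P N : Set C}

/-- Atomic models inside a given model. -/
theorem exists_atomic_in {X : Set C} (h : ∃ N, M.Atomic N X) (hN : N ∈ M.S) (hX : X ⊆ N) :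
    ∃ R, M.Atomic R X ∧ R ⊆ N := by
  obtain ⟨R, hR⟩ := h
  obtain ⟨g, hg, h1, h2⟩ := hR.exists_embed (f := id) (fun A _ _ => ⟨1, M.G.one_mem, fun a _ => rfl⟩)
    hN (fun x hx => hX hx)
  refine ⟨g '' R, hR.image hg h1, ?_⟩
  rintro _ ⟨a, ha, rfl⟩
  exact h2 a ha

/-- Maximal prime chains inside an extension. -/
theorem exists_max_pch (hC : Chn M) (hDI : ∀ P ∈ M.S, ∀ c : C, ∃ N, M.Atomic N ({c} ∪ P))
    (hP : P ∈ M.S) (hN : N ∈ M.S) (hPN : P ⊆ N) :
    ∃ (ι : Type u) (_ : LinearOrder ι) (_ : WellFoundedLT ι) (c : ι → C) (Q : ι → Set C),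
      PCh M P c Q ∧ tot P Q ⊆ N ∧ ∀ x ∈ N, M.Ind P {x} (tot P Q) → x ∈ P := by
  classical
  let W : Type u := (Order.succ M.χ).ord.ToType
  let pr : (W → C × Set C) → W → Set C := fun d i => P ∪ ⋃ j : Iio i, (d j).2
  let Ex : (W → C × Set C) → W → Prop := fun d i => ∃ x ∈ N, x ∉ P ∧ M.Ind P {x} (pr d i)
  let A : W → (W → C × Set C) → Prop := fun i d => Ex d i →
    (d i).1 ∈ N ∧ (d i).1 ∉ P ∧ M.Ind P {(d i).1} (pr d i) ∧ (d i).2 ⊆ N ∧
      M.Atomic (d i).2 ({(d i).1} ∪ pr d i)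
  have hprc : ∀ i (d d' : W → C × Set C), (∀ k < i, d k = d' k) → pr d i = pr d' i := by
    intro i d d' h
    have : ∀ j : Iio i, (d j).2 = (d' j).2 := fun j => by rw [h j j.2]
    change (P ∪ ⋃ j : Iio i, (d j).2) = P ∪ ⋃ j : Iio i, (d' j).2
    rw [iUnion_congr this]
  -- the models before `i`
  have hpm : ∀ (d : W → C × Set C) (i : W), (∀ k < i, A k d) → (∀ k < i, Ex d k) →
      pr d i ∈ M.S ∧ pr d i ⊆ N := by
    intro d i hA hE
    have hsub : pr d i ⊆ N := by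
      refine union_subset hPN (iUnion_subset fun j => ?_)
      exact (hA j j.2 (hE j j.2)).2.2.2.1
    refine ⟨?_, hsub⟩
    refine hC.union' (N := fun j : Iio i => (d j).2) hP ?_ ?_ ?_
      ((mk_le_mk_of_subset hsub).trans (M.S_card hN).le)
    · intro j k hjk
      rcases hjk.lt_or_eq with h | h
      · have h1 := (hA k k.2 (hE k k.2)).2.2.2.2.sub
        refine (Subset.trans ?_ subset_union_right).trans h1
        exact (subset_iUnion (fun j : Iio (k : W) => (d j).2) ⟨j, h⟩).trans subset_union_right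
      · rw [h]
    · intro j
      exact (hA j j.2 (hE j j.2)).2.2.2.2.mem
    · intro j
      exact (subset_union_left.trans subset_union_right).trans
        (hA j j.2 (hE j j.2)).2.2.2.2.sub
  -- the existence of a point before the stopping
  have hEx : ∀ (d : W → C × Set C) (i k : W), k < i → Ex d i → Ex d k := by
    rintro d i k hki ⟨x, hx, hxP, h⟩
    refine ⟨x, hx, hxP, h.mono Subset.rfl ?_⟩
    refine union_subset_union_right P (iUnion_subset fun j => ?_)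
    exact subset_iUnion (fun j : Iio i => (d j).2) ⟨j, lt_trans j.2 hki⟩
  have : Nonempty (C × Set C) := by
    have h1 : #N = M.χ := M.S_card hN
    have h2 : #N ≠ 0 := by
      rw [h1]
      exact (aleph0_pos.trans_le M.hχ).ne'
    obtain ⟨x⟩ := mk_ne_zero_iff.1 h2
    exact ⟨(x, ∅)⟩
  obtain ⟨d, hd⟩ := exists_rec A (by
    intro i d d' hdd h hE
    have h1 := hprc i d d' fun k hk => hdd k hk.le
    have h2 : d i = d' i := hdd i le_rfl
    have h3 : Ex d i := by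
      obtain ⟨x, hx, hxP, hxi⟩ := hE
      exact ⟨x, hx, hxP, by rwa [h1]⟩
    have h4 := h h3
    rw [h1, h2] at h4
    exact h4) (by
    intro i d hA
    by_cases hE : Ex d i
    · obtain ⟨h1, h2⟩ := hpm d i hA fun k hk => hEx d i k hk hE
      obtain ⟨x, hx, hxP, hxi⟩ := hE
      obtain ⟨R, hR, hRN⟩ := exists_atomic_in (hDI _ h1 x) hN
        (union_subset (singleton_subset_iff.2 hx) h2)
      refine ⟨(x, R), fun _ => ?_⟩
      have h3 : pr (update d i (x, R)) i = pr d i :=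
        hprc i _ _ fun k hk => update_of_ne hk.ne _ d
      rw [h3, update_self]
      exact ⟨hx, hxP, hxi, hRN, hR⟩
    · refine ⟨d i, fun h => absurd ?_ hE⟩
      obtain ⟨x, hx, hxP, hxi⟩ := h
      have h3 : pr (update d i (d i)) i = pr d i :=
        hprc i _ _ fun k hk => update_of_ne hk.ne _ d
      exact ⟨x, hx, hxP, by rwa [h3] at hxi⟩)
  -- the stopping time
  have hstop : ∃ i, ¬ Ex d i := by
    by_contra hcon
    push Not at hcon
    have hinj : Injective fun i : W => (⟨(d i).1, (hd i (hcon i)).1⟩ : N) := by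
      have hlt : ∀ i j, i < j → (d i).1 ≠ (d j).1 := by
        intro i j hij h
        obtain ⟨-, h2, h3, -, -⟩ := hd j (hcon j)
        have h4 : (d i).1 ∈ pr d j := by
          have h5 := (hd i (hcon i)).2.2.2.2.sub (Or.inl rfl)
          exact Or.inr (mem_iUnion.2 ⟨⟨i, hij⟩, h5⟩)
        exact h2 (h3.inter_sub ⟨rfl, h ▸ h4⟩)
      intro i j hij
      have hij' : (d i).1 = (d j).1 := congrArg Subtype.val hij
      rcases lt_trichotomy i j with h | h | h
      · exact absurd hij' (hlt i j h)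
      · exact h
      · exact absurd hij'.symm (hlt j i h)
    have h1 := mk_le_of_injective hinj
    rw [mk_ord_toType, M.S_card hN] at h1
    exact absurd h1 (not_le.2 (Order.lt_succ M.χ))
  obtain ⟨i₀, hi₀, hmin⟩ : ∃ i, ¬ Ex d i ∧ ∀ k < i, Ex d k := by
    refine ⟨(wellFounded_lt (α := W)).min {i | ¬ Ex d i} hstop,
      (wellFounded_lt (α := W)).min_mem _ hstop, fun k hk => ?_⟩
    by_contra hcon
    exact (wellFounded_lt (α := W)).not_lt_min {i | ¬ Ex d i} hcon hk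
  have hpre : ∀ i : Iio i₀, pre P (fun j : Iio i₀ => (d j).2) i = pr d i := by
    intro i
    change (P ∪ ⋃ j : Iio i, (d ((j : Iio i₀) : W)).2) = P ∪ ⋃ j : Iio (i : W), (d j).2
    congr 1
    ext z
    simp only [mem_iUnion]
    constructor
    · rintro ⟨⟨⟨j, hj⟩, hji⟩, hz⟩
      exact ⟨⟨j, hji⟩, hz⟩
    · rintro ⟨⟨j, hji⟩, hz⟩
      exact ⟨⟨⟨j, mem_Iio.2 (lt_trans (mem_Iio.1 hji) (mem_Iio.1 i.2))⟩, hji⟩, hz⟩
  have hA : ∀ i : Iio i₀, (d i).1 ∈ N ∧ (d i).1 ∉ P ∧ M.Ind P {(d i).1} (pr d i) ∧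
      (d i).2 ⊆ N ∧ M.Atomic (d i).2 ({(d i).1} ∪ pr d i) := fun i => hd i (hmin i i.2)
  have htot : tot P (fun j : Iio i₀ => (d j).2) = pr d i₀ := rfl
  refine ⟨Iio i₀, inferInstance, inferInstance, fun j => (d j).1, fun j => (d j).2,
    ⟨hP, fun i => ?_, fun i => ?_⟩, ?_, fun x hx hxi => ?_⟩
  · rw [hpre i]
    exact (hA i).2.2.1
  · rw [hpre i]
    exact (hA i).2.2.2.2
  · exact union_subset hPN (iUnion_subset fun j => (hA j).2.2.2.1)
  · by_contra hxP
    rw [htot] at hxi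
    exact hi₀ ⟨x, hx, hxP, hxi⟩

/-- **The `ω`-decomposition.** -/
theorem exists_od (hC : Chn M)
    (hDI : ∀ P ∈ M.S, ∀ c : C, ∃ N, M.Atomic N ({c} ∪ P)) (hP : P ∈ M.S) (hN : N ∈ M.S)
    (hPN : P ⊆ N) :
    ∃ R : ℕ → Set C, R 0 = P ∧ Monotone R ∧ (∀ n, R n ∈ M.S) ∧ (⋃ n, R n) = N ∧
      ∀ n, ∃ (ι : Type u) (_ : LinearOrder ι) (_ : WellFoundedLT ι) (c : ι → C) (Q : ι → Set C),
        PCh M (R n) c Q ∧ R (n + 1) = tot (R n) Q := by
  obtain ⟨R, hR, hRR⟩ := exists_seq (fun n (R : Set C) => (n = 0 → R = P) ∧ R ∈ M.S ∧ R ⊆ N)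
    (fun n R R' => (∃ (ι : Type u) (_ : LinearOrder ι) (_ : WellFoundedLT ι) (c : ι → C)
      (Q : ι → Set C), PCh M R c Q ∧ R' = tot R Q) ∧ ∀ x ∈ N, M.Ind R {x} R' → x ∈ R)
    ⟨P, fun _ => rfl, hP, hPN⟩ (by
      rintro n R ⟨-, h1, h2⟩
      obtain ⟨ι, i1, i2, c, Q, h3, h4, h5⟩ := exists_max_pch hC hDI h1 hN h2
      refine ⟨tot R Q, ⟨fun h => absurd h (Nat.succ_ne_zero n), ?_, h4⟩,
        ⟨ι, i1, i2, c, Q, h3, rfl⟩, h5⟩
      exact h3.tot_mem hC ((mk_le_mk_of_subset h4).trans (M.S_card hN).le))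
  have hmono : Monotone R := by
    refine monotone_nat_of_le_succ fun n => ?_
    obtain ⟨⟨ι, i1, i2, c, Q, -, h⟩, -⟩ := hRR n
    rw [h]
    exact subset_tot _ _
  have hsub : (⋃ n, R n) ⊆ N := iUnion_subset fun n => (hR n).2.2
  refine ⟨R, (hR 0).1 rfl, hmono, fun n => (hR n).2.1, Subset.antisymm hsub ?_,
    fun n => (hRR n).1⟩
  intro x hx
  have h1 : (⋃ n : ULift.{u} ℕ, R n.down) = ⋃ n, R n := by
    ext z
    simp only [mem_iUnion]
    exact ⟨fun ⟨n, hn⟩ => ⟨n.down, hn⟩, fun ⟨n, hn⟩ => ⟨⟨n⟩, hn⟩⟩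
  obtain ⟨n, hn⟩ := hC.loc (ULift.{u} ℕ) (fun n => R n.down) (fun a b hab => hmono hab)
    (fun n => (hR n.down).2.1) (by
      rw [h1]
      exact (mk_le_mk_of_subset hsub).trans (M.S_card hN).le) {x} (finite_singleton x)
  rw [h1] at hn
  have h2 := (hRR n.down).2 x hx (hn.mono Subset.rfl (subset_iUnion R (n.down + 1)))
  exact mem_iUnion.2 ⟨n.down, h2⟩

end Vale.Agent.P307.R2.H650
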