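import Vale.Agent.P307.R2.H650.Shr3
import Vale.Agent.P307.R2.H427.Low
import Vale.Agent.P307.R2.H480.Up

/-!
Free copies of small tuples over a small strong submodel `T`, from a free copy of a part of the
tuple.
-/

set_option linter.unusedSectionVars false

universe u v w

open FirstOrder Cardinal Set

namespace Vale.Agent.P307.R2.H650

open Vale.Agent.P307 Vale.Agent.P307.H304 Vale.Agent.P307.R2.H287 Vale.Agent.P307.R2.H1
  Vale.Agent.P307.R2.H971 Vale.Agent.P307.R2.H804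
  Vale.Agent.P307.R2.H541 Language.Structure Language.Substructure Function

variable {L : Language.{u, u}} {K : AEC L} {ℓ θ τ τ₁ τ₂ μ ν ρ : Cardinal.{u}}
  {κf α : Cardinal.{u} → Cardinal.{u}} {C : Type u} [L.Structure C]

theorem lvl_mono {Λ Λ' : Cardinal.{u}} (hl : Lvl ℓ κf α ν μ ρ Λ) (h : Λ ≤ Λ') :
    Lvl ℓ κf α ν μ ρ Λ' :=
  ⟨hl.hℓ, hl.tB, hl.νμ, hl.opB, hl.limB, hl.lt.trans_le h, hl.thr.trans h, hl.thr'.trans h,
    hl.thr''.trans h⟩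

section

variable (h₀ : BasePt K ℓ κf α θ) (hK : K.IsLS ℓ)
  (hunb : ∀ ν, ν < κf ν ∧ K.CategoricalIn (κf ν)) (hst : Stab K ℓ α (H287.thr κf))
  (hCm : K.mem C) (hs : Sat K θ C) (hCc : #C = Order.succ θ)

include h₀ hK hunb hst hCm hs hCc

/-- Conjugacy over the small pieces of strong submodels of size `τ < θ`. -/
theorem exists_conj_low (hτ : BasePt K ℓ κf α τ) (hτθ : τ < θ) (hl : Lvl ℓ κf α ν μ ρ τ)
    (D : L.Substructure C) (hD : K.le D) (hDc : #D = τ) {ι : Type u} (hι : #ι ≤ ν)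
    (r s : ι → C) (h : ∀ (ζ : Type u) (y : ζ → C), #ζ ≤ μ → (∀ z, y z ∈ D) →
      EqS L μ (Sum.elim y r) (Sum.elim y s)) {p : Set C} (hp : p ⊆ D) (hpc : #p < τ) :
    ∃ k ∈ autG L C, (∀ x ∈ p, k x = x) ∧ ∀ i, k (r i) = s i := by
  have hτ0 : ℵ₀ ≤ τ := H541.aleph0_le_pt hτ hK
  have hμ := hl.hμ hK
  have hντ : ν < τ := hl.νμ.trans_lt (hl.μΛ hunb)
  obtain ⟨C', hC', hC'c, hC's, hYC'⟩ := exists_low h₀ hK hunb hCm hCc hτ hτθ
    (Y := (D : Set C) ∪ (range r ∪ range s)) ((mk_union_le _ _).trans (add_le_of_le hτ0 hDc.le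
      ((mk_union_le _ _).trans (add_le_of_le hτ0 (mk_range_le.trans (hι.trans hντ.le))
        (mk_range_le.trans (hι.trans hντ.le))))))
  have hDC' : (D : Set C) ⊆ C' := fun x hx => hYC' (Or.inl hx)
  obtain ⟨D', hD', hD'c, hD'D⟩ := (low_mem h₀ hK hunb hst hCm hs hCc hτ hC' hC'c hC's
    (N := (Subtype.val ⁻¹' (D : Set C) : Set C'))).2 ⟨D, hD, hDc, by
      ext x
      constructor
      · intro hx
        exact ⟨⟨x, hDC' hx⟩, hx, rfl⟩
      · rintro ⟨y, hy, rfl⟩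
        exact hy⟩
  let r' : ι → C' := fun i => ⟨r i, hYC' (Or.inr (Or.inl ⟨i, rfl⟩))⟩
  let s' : ι → C' := fun i => ⟨s i, hYC' (Or.inr (Or.inr ⟨i, rfl⟩))⟩
  have hthr : H287.thr κf μ ≤ #C' := hl.thr'.trans ((Order.le_succ τ).trans hC'c.ge)
  obtain ⟨g, hg1, hg2⟩ := exists_aut hτ hK hunb hl (K.mem_of_le _ hC').1 hC's hC'c D' hD' hD'c hι
    r' s' (by
    intro ζ y hζ hy
    have hc := mk_sum_le' hμ hζ (hι.trans hl.νμ)
    have h1 := EqS.map_emb hK hunb hl.hℓμ C'.subtype (AEC.emb_subtype.2 hC') hthr hc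
      (Sum.elim y r')
    have h2 := EqS.map_emb hK hunb hl.hℓμ C'.subtype (AEC.emb_subtype.2 hC') hthr hc
      (Sum.elim y s')
    have h3 := h ζ (fun z => (y z : C)) hζ fun z => by
      have h4 : y z ∈ (D' : Set C') := hy z
      rw [hD'D] at h4
      exact h4
    have h4 : (fun i => C'.subtype (Sum.elim y r' i)) = Sum.elim (fun z => (y z : C)) r := by
      funext i
      rcases i with i | i <;> rfl
    have h5 : (fun i => C'.subtype (Sum.elim y s' i)) = Sum.elim (fun z => (y z : C)) s := by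
      funext i
      rcases i with i | i <;> rfl
    rw [h4] at h1
    rw [h5] at h2
    exact (h1.trans h3).trans h2.symm)
  obtain ⟨k, hk, hk'⟩ := (low_conj h₀ hK hunb hst hCm hs hCc hτ hτθ hC' hC'c hC's
    (A := (Subtype.val ⁻¹' p : Set C') ∪ range r') ((mk_union_le _ _).trans_lt
      (add_lt_of_lt hτ0 ((mk_preimage_of_injective _ _ Subtype.val_injective).trans_lt hpc)
        (mk_range_le.trans_lt (hι.trans_lt hντ)))) g).1 ⟨g.toEquiv, mem_autG g, fun a _ => rfl⟩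
  refine ⟨k, hk, fun x hx => ?_, fun i => ?_⟩
  · have h1 := hk' ⟨x, hDC' (hp hx)⟩ (Or.inl hx)
    have h2 : (⟨x, hDC' (hp hx)⟩ : C') ∈ D' := by
      rw [← SetLike.mem_coe, hD'D]
      exact hp hx
    rw [hg1 _ h2] at h1
    exact h1
  · have h1 := hk' (r' i) (Or.inr ⟨i, rfl⟩)
    rw [hg2 i] at h1
    exact h1

/-- **The free copy.** -/
theorem exists_free_copy (hτ₁ : BasePt K ℓ κf α τ₁) (hτ₂ : BasePt K ℓ κf α τ₂) (h12 : τ₁ ≤ τ₂)
    (hτ₂θ : τ₂ < θ) (hl : Lvl ℓ κf α ν μ ρ τ₁) (hα : α ν ≤ μ)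
    {N T R : L.Substructure C} (hN : K.le N) (hNc : #N = θ) (hT : K.le T) (hTc : #T = τ₁)
    (hR : K.le R) (hRc : #R = τ₂) (hTR : T ≤ R) (hRN : R ≤ N)
    {ι κ : Type u} (hικ : #(ι ⊕ κ) ≤ ν) (e : ι → C) (x : κ → C)
    (hx : ∀ q ⊆ (R : Set C), #q ≤ limB κf μ → ∃ s ∈ autG L C, (∀ a ∈ q, s a = a) ∧
      ∀ i, s (x i) ∈ T) :
    ∃ (v : ι → C) (w : κ → C),
      (∀ p ⊆ (T : Set C), #p < τ₁ → ∃ k ∈ autG L C, (∀ a ∈ p, k a = a) ∧ (∀ i, k (e i) = v i) ∧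
        ∀ i, k (x i) = w i) ∧
      (∃ q₀ ⊆ (T : Set C), #q₀ ≤ ρ ∧ ∀ q ⊆ (N : Set C), #q ≤ ν → ∃ s ∈ autG L C,
        (∀ a ∈ q, s a = a) ∧ ∀ i, s (v i) ∈ q₀) ∧
      ∀ B ⊆ (R : Set C), #B < τ₂ → ∃ l ∈ autG L C, (∀ a ∈ B, l a = a) ∧ ∀ i, l (w i) = x i := by
  classical
  have hθ : ℵ₀ ≤ θ := H541.aleph0_le_pt h₀ hK
  have hτ₁θ : τ₁ < θ := h12.trans_lt hτ₂θ
  have hl₂ : Lvl ℓ κf α ν μ ρ τ₂ := lvl_mono hl h12
  have hlθ : Lvl ℓ κf α ν μ ρ θ := lvl_mono hl hτ₁θ.le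
  have hμ := hl.hμ hK
  have hν : ℵ₀ ≤ ν := hK.1.trans hl.hℓ
  have hμρ := hl.μρ hunb
  have hικμ : #(ι ⊕ κ) ≤ μ := hικ.trans hl.νμ
  have hκν : #κ ≤ ν := (mk_le_of_injective Sum.inr_injective).trans hικ
  have hTr : Refl L ρ (T : Set C) :=
    refl_of_le hK hunb (hl.hℓμ.trans hμρ) hT (hl.thr.trans hTc.ge)
  have hTN : (T : Set C) ⊆ N := fun c hc => hRN (hTR hc)
  obtain ⟨z, hz1, hz2⟩ := exists_free h₀ hK hunb hlθ hs N hN hNc hικμ (Sum.elim e x) hTN hTr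
  refine ⟨fun i => z (Sum.inl i), fun i => z (Sum.inr i), ?_, ?_, ?_⟩
  · intro p hp hpc
    obtain ⟨k, hk, hk1, hk2⟩ := exists_conj_low h₀ hK hunb hst hCm hs hCc hτ₁ hτ₁θ hl T hT hTc
      hικ (Sum.elim e x) z (fun ζ y hζ hy => (hz2 ζ y hζ hy).symm) hp hpc
    exact ⟨k, hk, hk1, fun i => hk2 (Sum.inl i), fun i => hk2 (Sum.inr i)⟩
  · obtain ⟨a, ha1, ha2⟩ := hz1
    refine ⟨range fun q : SuccTy (opB κf μ) × ι => a q.1 (Sum.inl q.2), ?_, ?_, ?_⟩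
    · rintro _ ⟨q, rfl⟩
      exact ha1 _ _
    · refine mk_range_le.trans ?_
      exact mk_prod_le (hμ.trans hμρ) ((mk_succTy _).trans_le hl.opB)
        (((mk_le_of_injective Sum.inl_injective).trans hικμ).trans hμρ)
    · intro q hq hqc
      obtain ⟨ξ, hξ⟩ := ha2 q (fun c => c) (hqc.trans hl.νμ) fun c => Or.inr (hq c.2)
      have h1 := hξ ξ le_rfl
      have hc : #(q ⊕ (ι ⊕ κ)) ≤ ν := mk_sum_le' hν hqc hικ
      have h2 := EqS.mono (hν.trans (hst ν hl.hℓ).1) hα h1 (hc.trans (hst ν hl.hℓ).1)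
      obtain ⟨s, hsG, hs'⟩ := exists_mem_autG h₀ hK hunb hst hCm hs hCc hl.hℓ
        (hlθ.νμ.trans_lt (hlθ.μΛ hunb)) hc _ _ h2.symm
      refine ⟨s, hsG, fun c hc => hs' (Sum.inl ⟨c, hc⟩), fun i => ?_⟩
      have h3 : s (z (Sum.inl i)) = a ξ (Sum.inl i) := hs' (Sum.inr (Sum.inl i))
      rw [h3]
      exact ⟨(ξ, i), rfl⟩
  · intro B hB hBc
    -- both copies are free from `R` over `T`
    have h1 : Ind L κf μ (T : Set C) (R : Set C) fun i => z (Sum.inr i) :=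
      (hz1.comp (Sum.inr : κ → ι ⊕ κ)).mono fun c hc => Or.inr (hRN hc)
    have h2 : Ind L κf μ (T : Set C) (R : Set C) x := by
      refine ind_of_coh hτ₂ hK hunb hl₂ R hR hRc (hκν.trans hl.νμ) x
        (union_subset hTR Subset.rfl) ?_
      intro η y hη hy
      obtain ⟨g, ⟨e', he'⟩, h3, h4⟩ := hx (range y) (by
        rintro _ ⟨z, rfl⟩
        rcases hy z with h | h
        · exact hTR h
        · exact h) (mk_range_le.trans hη)
      refine ⟨fun i => e' (x i), fun i => ?_, fun ξ f hξ => ?_⟩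
      · change e' (x i) ∈ (T : Set C)
        rw [he']
        exact h4 i
      · have h5 := H804.EqS.equiv hμ (mk_sum_le' hμ hξ (hκν.trans hl.νμ)) e'
          (Sum.elim (fun k => y (f k)) x)
        refine EqS.symm (h5.subset ?_)
        rintro _ ⟨k | i, rfl⟩
        · refine ⟨Sum.inl k, Prod.ext rfl ?_⟩
          change e' (y (f k)) = y (f k)
          rw [he']
          exact h3 _ ⟨_, rfl⟩
        · exact ⟨Sum.inr i, rfl⟩
    obtain ⟨l, hlG, hl1, hl2⟩ := exists_conj_low h₀ hK hunb hst hCm hs hCc hτ₂ hτ₂θ hl₂ R hR hRc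
      hκν (fun i => z (Sum.inr i)) x (by
      intro ζ y hζ hy
      refine Ind.uniq hμ hμρ hl.opB (hκν.trans hl.νμ) hTr h1 h2 ?_ hζ y fun k => Or.inr (hy k)
      intro ξ y' hξ hy'
      refine (hz2 ξ y' hξ hy').subset ?_
      rintro _ ⟨k | i, rfl⟩
      · exact ⟨Sum.inl k, rfl⟩
      · exact ⟨Sum.inr (Sum.inr i), rfl⟩) hB hBc
    exact ⟨l, hlG, hl1, hl2⟩

end

end Vale.Agent.P307.R2.H650
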