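import Vale.Agent.P307.R2.H650.LcStd
import Vale.Agent.P307.R2.H480.Up
import Vale.Agent.P307.R2.H913.ChnPg

/-!
Finite local character of independence along well-ordered chains of strong submodels, of any
cofinality, at a base point which is a limit of base points.
-/

set_option linter.unusedSectionVars false

universe u v w

open FirstOrder Cardinal Set

namespace Vale.Agent.P307.R2.H650

open Vale.Agent.P307 Vale.Agent.P307.H304 Vale.Agent.P307.R2.H287 Vale.Agent.P307.R2.H1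
  Vale.Agent.P307.R2.H971 Vale.Agent.P307.R2.H804 Vale.Agent.P307.R2.H806
  Vale.Agent.P307.R2.H541 Language.Structure Language.Substructure Function

variable {L : Language.{u, u}} {K : AEC L} {ℓ θ σ τ ν' μ ν ρ : Cardinal.{u}}
  {κf α : Cardinal.{u} → Cardinal.{u}} {C : Type u} [L.Structure C]

section

variable (h₀ : BasePt K ℓ κf α θ) (hK : K.IsLS ℓ)
  (hunb : ∀ ν, ν < κf ν ∧ K.CategoricalIn (κf ν)) (hst : Stab K ℓ α (H287.thr κf))
  (hCm : K.mem C) (hs : Sat K θ C) (hCc : #C = Order.succ θ)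

include h₀ hK hunb hst hCm hs hCc

/-- One level. -/
theorem exists_ind_chain (hlim : ∀ ρ < θ, ∃ σ, ρ < σ ∧ σ < θ ∧ BasePt K ℓ κf α σ)
    (hl : Lvl ℓ κf α ν μ ρ θ) {W : Type u} [LinearOrder W] [WellFoundedLT W] [Nonempty W]
    [NoMaxOrder W] (hW : #W < θ) (N : W → L.Substructure C) (hN : Monotone N)
    (hNK : ∀ w, K.le (N w)) (hNc : ∀ w, #(N w) = θ) {κ : Type u} [Finite κ] (x : κ → C) :
    ∃ w, Ind L κf μ (N w : Set C) (⋃ w, (N w : Set C)) x := by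
  classical
  by_contra hcon
  push Not at hcon
  have hθ : ℵ₀ ≤ θ := H541.aleph0_le_pt h₀ hK
  have hμ := hl.hμ hK
  have hν : ℵ₀ ≤ ν := hK.1.trans hl.hℓ
  have hκν : #κ ≤ ν := (lt_aleph0_of_finite κ).le.trans hν
  have hκμ : #κ ≤ μ := hκν.trans hl.νμ
  have hμρ := hl.μρ hunb
  have hρ0 : ℵ₀ ≤ ρ := hμ.trans hμρ
  have hCκ : opB κf μ ≤ #C := le_card_sat h₀ hK hunb hl hCc
  -- the witnesses
  have h1 : ∀ w, ∃ (ζ : Type u) (m : ζ → C), #ζ ≤ μ ∧ (∀ z, m z ∈ ⋃ w, (N w : Set C)) ∧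
      ¬ Ind L κf μ (N w : Set C) (range m) x := by
    intro w
    by_contra h
    push Not at h
    exact hcon w (Ind.of_small hμ hμρ hl.opB hκμ (refl_big h₀ hK hunb hl (N w) (hNK w) (hNc w))
      (ind_empty h₀ hK hunb hl (N w) (hNK w) (hNc w) hκμ x Subset.rfl
        (refl_big h₀ hK hunb hl (N w) (hNK w) (hNc w))) fun ζ m hζ hm => h ζ m hζ hm)
  choose ζ m hζ hm hbad using h1
  have hxm : ∀ w, #(κ ⊕ ζ w) ≤ μ := fun w => mk_sum_le' hμ hκμ (hζ w)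
  have h2 : ∀ w, Ind L κf μ (N w : Set C) ∅ (Sum.elim x (m w)) := fun w =>
    ind_empty h₀ hK hunb hl (N w) (hNK w) (hNc w) (hxm w) _ Subset.rfl
      (refl_big h₀ hK hunb hl (N w) (hNK w) (hNc w))
  choose a ha ha' using h2
  -- the base point
  obtain ⟨τ, hτ⟩ : ∃ τ, τ = limB κf μ := ⟨_, rfl⟩
  have hop : opB κf μ < θ := (Order.lt_succ _).trans_le (hl.opB.trans hl.lt.le)
  have hlimθ : limB κf μ < θ := hl.limB.trans_lt hl.lt
  obtain ⟨σ, hσ1, hσθ, hσ⟩ := hlim (max (max (max #W ρ) (max (H287.thr κf ρ)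
    (H287.thr κf μ))) (max (H287.thr κf (opB κf μ)) (H287.thr κf (limB κf μ))))
    (max_lt (max_lt (max_lt hW hl.lt) (max_lt (h₀.pt.thr _ hl.lt) (h₀.pt.thr _ (hl.μΛ hunb))))
      (max_lt (h₀.pt.thr _ hop) (h₀.pt.thr _ hlimθ)))
  obtain ⟨hσ2, hσ3⟩ := max_lt_iff.1 hσ1
  obtain ⟨hσ4, hσ5⟩ := max_lt_iff.1 hσ2
  obtain ⟨hWσ, hρσ⟩ := max_lt_iff.1 hσ4
  obtain ⟨hσ6, hσ7⟩ := max_lt_iff.1 hσ5
  obtain ⟨hσ8, hσ9⟩ := max_lt_iff.1 hσ3
  have hσ0 : ℵ₀ ≤ σ := H541.aleph0_le_pt hσ hK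
  have hlσ : Lvl ℓ κf α ν μ ρ σ := ⟨hl.hℓ, hl.tB, hl.νμ, hl.opB, hl.limB, hρσ, hσ6.le, hσ7.le,
    hσ8.le⟩
  have hμτ : μ ≤ τ := hτ ▸ (le_opB hunb μ).trans (opB_le_limB κf μ)
  have hℓτ : ℓ ≤ τ := hl.hℓμ.trans hμτ
  have hτσ : τ < σ := hτ ▸ hl.limB.trans_lt hρσ
  -- the standard chain
  let p : W → Set C := fun w => (range fun q : SuccTy (opB κf μ) × (κ ⊕ ζ w) => a w q.1 q.2) ∪
    ((⋃ v, range (m v)) ∩ N w)
  have hpc : ∀ w, #(p w) ≤ σ := by
    intro w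
    refine (mk_union_le _ _).trans (add_le_of_le hσ0 ?_ ?_)
    · refine mk_range_le.trans ?_
      refine le_trans ?_ hρσ.le
      exact mk_prod_le hρ0 ((mk_succTy _).trans_le hl.opB) ((hxm w).trans hμρ)
    · refine (mk_le_mk_of_subset inter_subset_left).trans ?_
      exact mk_iUnion_le_of_le hσ0 hWσ.le _ fun v =>
        mk_range_le.trans (((hζ v).trans hμρ).trans hρσ.le)
  obtain ⟨R, hR, hRK, hRc, hRN, hpR, w, hw⟩ := exists_std_chain h₀ hK hunb hst hCm hs hCc hσ hσθ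
    (τ := τ) (ν' := τ) hℓτ le_rfl (Order.succ_le_of_lt hτσ)
    ((hτ ▸ hσ9.le : H287.thr κf τ ≤ σ).trans (Order.le_succ σ)) hWσ.le N hN hNK hNc p (by
      rintro w _ (⟨q, rfl⟩ | ⟨-, hc⟩)
      · exact ha w _ _
      · exact hc) hpc (range x) (finite_range x)
  have hRS : ((⨆ w, R w : L.Substructure C) : Set C) = ⋃ w, (R w : Set C) :=
    H913.coe_iSup' R hR
  have hRSK : K.le (⨆ w, R w) := AEC.le_iSup_directed R hR hRK
  have hRSc : #(⨆ w, R w : L.Substructure C) = σ := by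
    refine le_antisymm ?_ ((hRc w).ge.trans (mk_le_mk_of_subset (le_iSup R w :)))
    have h3 : #((⨆ w, R w : L.Substructure C) : Set C) ≤ σ := by
      rw [hRS]
      exact mk_iUnion_le_of_le hσ0 hWσ.le _ fun v => (hRc v).le
    exact h3
  have h3 : Ind L κf μ (R w : Set C) (⋃ w, (R w : Set C)) x := by
    have h4 : (R w : Set C) ⊆ ⋃ w, (R w : Set C) := subset_iUnion (fun w => (R w : Set C)) w
    refine ind_of_coH hσ hK hunb hlσ (τ := τ) (ν' := τ) hτ.ge le_rfl (⨆ w, R w) hRSK hRSc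
      (A := range x) ?_ ?_ hκν x fun i => ⟨i, rfl⟩
    · rw [hRS]
      exact union_subset h4 Subset.rfl
    · rw [union_eq_self_of_subset_left h4]
      exact hw
  have hRr : Refl L ρ (R w : Set C) :=
    refl_of_le hK hunb (hl.hℓμ.trans hμρ) (hRK w) (hσ6.le.trans (hRc w).ge)
  have hRNw : (R w : Set C) ⊆ N w := hRN w
  -- the pair is free from `N w` over `R w`
  have h4 : Ind L κf μ (R w : Set C) (N w : Set C) (Sum.elim x (m w)) := by
    refine ⟨a w, fun s i => hpR w (Or.inl ⟨(s, i), rfl⟩), (ha' w).mono ?_⟩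
    exact union_subset (hRNw.trans subset_union_left) subset_union_left
  have h5 : Ind L κf μ (R w : Set C) (range (m w)) x := by
    refine h3.mono ?_
    rintro _ ⟨z, rfl⟩
    obtain ⟨v, hv⟩ := mem_iUnion.1 (hm w z)
    exact Or.inr (mem_iUnion.2 ⟨v, hpR v (Or.inr ⟨mem_iUnion.2 ⟨w, z, rfl⟩, hv⟩)⟩)
  have h6 : ∀ (ξ : Type u) (n : ξ → C), #ξ ≤ μ → (∀ z, n z ∈ N w) →
      Ind L κf μ (R w : Set C) (range (m w) ∪ range n) x := by
    intro ξ n hξ hn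
    refine Ind.pairs hK hunb hl.hℓμ hCm hCκ hκμ hξ h5 ?_
    have h7 : Ind L κf μ (R w : Set C) (range n) (Sum.elim x (m w)) := h4.mono (by
      rintro _ ⟨z, rfl⟩
      exact Or.inr (hn z))
    have h8 := Ind.symm hK hunb hl.hℓμ hCm hCκ hξ (hxm w)
      (ind_empty h₀ hK hunb hl (N w) (hNK w) (hNc w) hξ n hRNw hRr) h7
    rwa [Sum.elim_range, union_comm] at h8
  have h7 : Ind L κf μ (R w : Set C) (range (m w) ∪ N w) x := by
    refine Ind.of_small hμ hμρ hl.opB hκμ hRr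
      (ind_empty h₀ hK hunb hl (N w) (hNK w) (hNc w) hκμ x hRNw hRr) fun ξ n hξ hn => ?_
    refine (h6 {z // n z ∈ N w} (fun z => n z) ((mk_subtype_le _).trans hξ) fun z => z.2).mono ?_
    rintro _ ⟨z, rfl⟩
    rcases hn z with h8 | h8
    · exact Or.inr (Or.inl h8)
    · exact Or.inr (Or.inr ⟨⟨z, h8⟩, rfl⟩)
  refine hbad w ((h7.base hRNw fun c hc => Or.inr (Or.inr hc)).mono ?_)
  exact fun c hc => Or.inr (Or.inl hc)

/-- **Local character along well-ordered chains of small length.** -/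
theorem pg_loc_wo (hlim : ∀ ρ < θ, ∃ σ, ρ < σ ∧ σ < θ ∧ BasePt K ℓ κf α σ) {W : Type u}
    [LinearOrder W] [WellFoundedLT W] [Nonempty W] [NoMaxOrder W] (hW : #W < θ)
    (N : W → Set C) (hN : Monotone N)
    (hNS : ∀ w, N w ∈ (pg h₀ hK hunb hst hCm hs hCc).S) {X : Set C} (hX : X.Finite) :
    ∃ w, (pg h₀ hK hunb hst hCm hs hCc).Ind (N w) X (⋃ w, N w) := by
  have hθ : ℵ₀ ≤ θ := H541.aleph0_le_pt h₀ hK
  have hU : (⋃ w, N w) ∈ (pg h₀ hK hunb hst hCm hs hCc).S := by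
    refine H913.pg_iUnion h₀ hK hunb hst hCm hs hCc N hN hNS ?_
    exact mk_iUnion_le_of_le hθ hW.le _ fun w => by
      obtain ⟨D, -, h1, h2⟩ := hNS w
      rw [← h2]
      exact h1.le
  obtain ⟨U, hUK, hUc, hUN⟩ := hU
  choose D hDK hDc hDN using hNS
  have hDm : Monotone D := fun v w h => by
    have := hN h
    rw [← hDN v, ← hDN w] at this
    exact this
  have hUD : (U : Set C) = ⋃ w, (D w : Set C) := by
    rw [hUN]
    exact (iUnion_congr hDN).symm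
  obtain ⟨ν, μ, ρ, -, -, hl⟩ := exists_lvl h₀ (σ := ℓ) h₀.pt.lt
  have hXc : #X ≤ ν := (lt_aleph0_iff_set_finite.2 hX).le.trans (hK.1.trans hl.hℓ)
  have : Finite X := hX
  obtain ⟨w, hw⟩ := exists_ind_chain h₀ hK hunb hst hCm hs hCc hlim hl hW D hDm hDK hDc
    (fun x : X => (x : C))
  rw [← hUD] at hw
  refine ⟨w, ?_⟩
  have h1 := H480.pg_ind_of_lvl h₀ hK hunb hst hCm hs hCc (hDK w) (hDc w) hUK hUc (by
    rw [hUD]
    exact subset_iUnion (fun w => (D w : Set C)) w) hl hXc hw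
  have h2 := (pg_calc h₀ hK hunb hst hCm hs hCc).sym (pg_mem' h₀ hK hunb hst hCm hs hCc (hDK w)
    (hDc w)) h1
  rw [hUN, hDN] at h2
  exact h2

end

end Vale.Agent.P307.R2.H650
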