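import Vale.Agent.P307.R2.H650.LcCore
import Vale.Agent.P307.R2.H301.Din.Defs

/-!
Finite local character of independence along arbitrary chains of models: reduction to well-ordered
chains of small length.
-/

set_option linter.unusedSectionVars false

universe u

open Set Cardinal Function

namespace Vale.Agent.P307.R2.H650

open Vale.Agent.P307.R2.H541 Vale.Agent.P307.R2.H541.PG

/-- Every set in a linear order has a well-ordered cofinal subset. -/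
theorem exists_wo_cofinal {ι : Type u} [LinearOrder ι] (J : Set ι) :
    ∃ W ⊆ J, WellFoundedLT W ∧ ∀ j ∈ J, ∃ w ∈ W, j ≤ w := by
  classical
  let r : J → J → Prop := WellOrderingRel
  have hr : IsWellOrder J r := inferInstance
  let W : Set ι := {j | ∃ h : j ∈ J, ∀ k : J, r k ⟨j, h⟩ → (k : ι) < j}
  have hWJ : W ⊆ J := fun j hj => hj.1
  refine ⟨W, hWJ, ?_, ?_⟩
  · have h1 : ∀ v w : W, v < w → r ⟨v, hWJ v.2⟩ ⟨w, hWJ w.2⟩ := by
      intro v w hvw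
      rcases trichotomous_of r ⟨(v : ι), hWJ v.2⟩ ⟨(w : ι), hWJ w.2⟩ with h | h | h
      · exact h
      · have h2 : (v : ι) = w := congrArg (fun j : J => (j : ι)) h
        exact absurd h2 (ne_of_lt hvw)
      · obtain ⟨h3, h4⟩ := v.2
        exact absurd (h4 ⟨w, hWJ w.2⟩ h) (not_lt.2 (le_of_lt hvw))
    refine ⟨?_⟩
    have h2 : WellFounded (InvImage r fun w : W => (⟨w, hWJ w.2⟩ : J)) :=
      InvImage.wf _ hr.wf
    exact h2.mono h1
  · intro j hj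
    obtain ⟨w, hw, hmin⟩ := hr.wf.has_min {k : J | j ≤ k} ⟨⟨j, hj⟩, le_rfl⟩
    refine ⟨w, ⟨w.2, fun k hk => ?_⟩, hw⟩
    by_contra h
    exact hmin k (le_trans hw (not_lt.1 h)) hk

/-- **Reduction to well-ordered chains of small length.** -/
theorem loc_of_wo {C : Type u} {M : PG C} (hχ : ℵ₀ < M.χ)
    (h : ∀ (W : Type u) [LinearOrder W] [WellFoundedLT W] [Nonempty W] [NoMaxOrder W],
      #W < M.χ → ∀ N : W → Set C, Monotone N → (∀ w, N w ∈ M.S) → ∀ x : Set C, x.Finite →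
        ∃ w, M.Ind (N w) x (⋃ w, N w))
    (ι : Type u) [LinearOrder ι] [Nonempty ι] (N : ι → Set C) (hN : Monotone N)
    (hNS : ∀ i, N i ∈ M.S) (hc : #(⋃ i, N i : Set C) ≤ M.χ) (x : Set C) (hx : x.Finite) :
    ∃ i, M.Ind (N i) x (⋃ i, N i) := by
  classical
  by_cases h0 : ∃ i, N i = ⋃ i, N i
  · obtain ⟨i, hi⟩ := h0
    refine ⟨i, ?_⟩
    intro A _ _ B hB _
    refine ⟨1, M.G.one_mem, fun a _ => rfl, fun b hb => ?_⟩
    rw [hi]
    exact hB hb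
  push Not at h0
  have h1 : ∀ i, ∃ j, ∃ d ∈ N j, d ∉ N i := by
    intro i
    by_contra hcon
    push Not at hcon
    refine h0 i (Subset.antisymm (subset_iUnion N i) (iUnion_subset fun j d hd => hcon j d hd))
  have h2 : ∀ i, ∃ j, i < j ∧ ∃ d ∈ N j, d ∉ N i := by
    intro i
    obtain ⟨j, d, hd, hd'⟩ := h1 i
    exact ⟨j, lt_of_not_ge fun hji => hd' (hN hji hd), d, hd, hd'⟩
  -- a small cofinal set
  obtain ⟨J, hJ, hJc⟩ : ∃ J : Set ι, #J < M.χ ∧ ∀ d ∈ ⋃ i, N i, ∃ j ∈ J, d ∈ N j := by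
    obtain ⟨Y, hYm, hYc, hY⟩ := M.cof _ hc
    have h3 : ∀ d : C, ∃ i, d ∈ (⋃ i, N i) → d ∈ N i := by
      intro d
      by_cases hd : d ∈ ⋃ i, N i
      · obtain ⟨i, hi⟩ := mem_iUnion.1 hd
        exact ⟨i, fun _ => hi⟩
      · exact ⟨Classical.arbitrary ι, fun h => absurd h hd⟩
    choose f hf using h3
    by_cases h4 : ∃ n, ∀ d ∈ ⋃ i, N i, ∃ j ∈ f '' Y n, d ∈ N j
    · obtain ⟨n, hn⟩ := h4
      exact ⟨f '' Y n, mk_image_le.trans_lt (hYc n), hn⟩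
    · push Not at h4
      choose e he he' using h4
      refine ⟨range fun n => f (e n), ?_, ?_⟩
      · refine lt_of_le_of_lt ?_ hχ
        exact (countable_range _).le_aleph0
      · intro d hd
        have h5 : d ∈ ⋃ n, Y n := by
          rw [hY]
          exact hd
        obtain ⟨n, hn⟩ := mem_iUnion.1 h5
        refine ⟨f (e n), ⟨n, rfl⟩, ?_⟩
        have h6 : e n ∉ N (f d) := he' n (f d) ⟨d, hn, rfl⟩
        have h7 : f d < f (e n) := lt_of_not_ge fun h8 => h6 (hN h8 (hf _ (he n)))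
        exact hN h7.le (hf d hd)
  obtain ⟨W, hWJ, hWwf, hWc⟩ := exists_wo_cofinal J
  have hcof : ∀ d ∈ ⋃ i, N i, ∃ w ∈ W, d ∈ N w := by
    intro d hd
    obtain ⟨j, hj, hdj⟩ := hJc d hd
    obtain ⟨w, hw, hjw⟩ := hWc j hj
    exact ⟨w, hw, hN hjw hdj⟩
  have hNe : (⋃ i, N i).Nonempty := by
    obtain ⟨j, d, hd, -⟩ := h1 (Classical.arbitrary ι)
    exact ⟨d, mem_iUnion.2 ⟨j, hd⟩⟩
  obtain ⟨d₀, hd₀⟩ := hNe
  obtain ⟨w₀, hw₀, -⟩ := hcof d₀ hd₀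
  have : Nonempty W := ⟨⟨w₀, hw₀⟩⟩
  have : NoMaxOrder W := ⟨fun w => by
    obtain ⟨j, d, hd, hd'⟩ := h1 w
    obtain ⟨v, hv, hdv⟩ := hcof d (mem_iUnion.2 ⟨j, hd⟩)
    exact ⟨⟨v, hv⟩, lt_of_not_ge fun h3 => hd' (hN h3 hdv)⟩⟩
  obtain ⟨w, hw⟩ := h W ((mk_le_mk_of_subset hWJ).trans_lt hJ) (fun w => N w)
    (fun v w h => hN h) (fun w => hNS w) x hx
  have hU : (⋃ w : W, N w) = ⋃ i, N i := by
    apply Subset.antisymm
    · exact iUnion_subset fun w => subset_iUnion N w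
    · intro d hd
      obtain ⟨w, hw, hdw⟩ := hcof d hd
      exact mem_iUnion.2 ⟨⟨w, hw⟩, hdw⟩
  rw [hU] at hw
  exact ⟨w, hw⟩

end Vale.Agent.P307.R2.H650

namespace Vale.Agent.P307.R2.H650

open FirstOrder Vale.Agent.P307 Vale.Agent.P307.H304 Vale.Agent.P307.R2.H287
  Vale.Agent.P307.R2.H1 Vale.Agent.P307.R2.H971 Vale.Agent.P307.R2.H804 Vale.Agent.P307.R2.H541
  Vale.Agent.P307.R2.H718

variable {L : Language.{u, u}} {K : AEC L} {ℓ θ : Cardinal.{u}}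
  {κf α : Cardinal.{u} → Cardinal.{u}}

/-- **The chain conditions at the base points of rank one.** -/
theorem chnU_of_rk (hθ : Rk K ℓ κf α 1 θ) : H301.ChnU K ℓ κf α θ := by
  intro h₀ hK hunb hst C _ hCm hs hCc
  have hlim : ∀ ρ < θ, ∃ σ, ρ < σ ∧ σ < θ ∧ BasePt K ℓ κf α σ := fun ρ hρ => by
    obtain ⟨σ, h1, h2, h3⟩ := hθ.exists_btw hρ
    exact ⟨σ, h1, h2, h3.base⟩
  have hχ : ℵ₀ < θ := by
    obtain ⟨σ, h1, h2, h3⟩ := hlim ℓ h₀.pt.lt
    exact (H541.aleph0_le_pt h3 hK).trans_lt h2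
  refine H913.pg_chn h₀ hK hunb hst hCm hs hCc ?_
  exact loc_of_wo (M := pg h₀ hK hunb hst hCm hs hCc) hχ fun W _ _ _ _ hW N hN hNS x hx =>
    pg_loc_wo h₀ hK hunb hst hCm hs hCc hlim hW N hN hNS hx

/-- **The row `lc`.** -/
theorem ev_chnU : H301.Ev K ℓ κf α (H301.ChnU K ℓ κf α) := ⟨1, fun _ hθ => chnU_of_rk hθ⟩

end Vale.Agent.P307.R2.H650
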