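import Vale.Agent.P307.R2.H427.Low
import Vale.Agent.P307.R2.H578.FCont
import Vale.Agent.P307.R2.H229.Tree

/-!
Chains of standard submodels inside a given chain of strong submodels; finite sets are in free
position from the union over one member of the chain.
-/

set_option linter.unusedSectionVars false

universe u v w

open FirstOrder Cardinal Set

namespace Vale.Agent.P307.R2.H650

open Vale.Agent.P307 Vale.Agent.P307.H304 Vale.Agent.P307.R2.H287 Vale.Agent.P307.R2.H1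
  Vale.Agent.P307.R2.H971 Vale.Agent.P307.R2.H804 Vale.Agent.P307.R2.H806
  Vale.Agent.P307.R2.H541 Language.Structure Language.Substructure Function

variable {L : Language.{u, u}} {K : AEC L} {ℓ θ σ τ ν' : Cardinal.{u}}
  {κf α : Cardinal.{u} → Cardinal.{u}} {C : Type u} [L.Structure C]

section pos

variable {D : Type u} [L.Structure D]

/-- Moving a position by an automorphism. -/
theorem _root_.Vale.Agent.P307.R2.H971.Pos.exists_move (hC : K.mem C) (x : Pos K σ D C)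
    (g : C ≃[L] C) :
    ∃ y : Pos K σ D C, y.S = x.S ∧ (y.S' : Set C) = g '' x.S' ∧
      ∀ p ∈ x.R, (p.1, g p.2) ∈ y.R := by
  obtain ⟨e, he⟩ := x.exists_equiv
  obtain ⟨y, hy⟩ := exists_pos_of_emb x.S.subtype
    (g.toEmbedding.comp (x.S'.subtype.comp e.toEmbedding)) (AEC.emb_subtype.2 x.le)
    (AEC.Emb.comp (AEC.Emb.of_equiv g hC) (AEC.Emb.comp (AEC.emb_subtype.2 x.le')
      (AEC.Emb.of_equiv e (K.mem_of_le _ x.le).1))) x.card
  refine ⟨y, ?_, ?_, ?_⟩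
  · apply SetLike.coe_injective
    rw [y.fst, hy]
    ext z
    constructor
    · rintro ⟨_, ⟨a, rfl⟩, rfl⟩
      exact a.2
    · intro hz
      exact ⟨_, ⟨⟨z, hz⟩, rfl⟩, rfl⟩
  · rw [y.snd, hy]
    ext z
    constructor
    · rintro ⟨_, ⟨a, rfl⟩, rfl⟩
      exact ⟨e a, (e a).2, rfl⟩
    · rintro ⟨c, hc, rfl⟩
      refine ⟨_, ⟨e.symm ⟨c, hc⟩, rfl⟩, ?_⟩
      change g (e (e.symm ⟨c, hc⟩) : C) = g c
      rw [e.apply_symm_apply]
  · intro p hp
    have h1 : p.1 ∈ x.S := by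
      rw [← SetLike.mem_coe, x.fst]
      exact ⟨p, hp, rfl⟩
    have h2 : ((e ⟨p.1, h1⟩ : x.S') : C) = p.2 := (x.pi.eq_iff _ (he ⟨p.1, h1⟩) _ hp).1 rfl
    rw [hy]
    refine ⟨⟨p.1, h1⟩, Prod.ext rfl ?_⟩
    change g (e ⟨p.1, h1⟩ : x.S') = g p.2
    rw [h2]

/-- Restricting the codomain of a position. -/
theorem _root_.Vale.Agent.P307.R2.H971.Pos.exists_restrict (x : Pos K σ D C)
    {C' : L.Substructure C} (hC' : K.le C') (h : x.S' ≤ C') :
    ∃ y : Pos K σ D C', y.S = x.S ∧ (∀ c : C', c ∈ y.S' ↔ (c : C) ∈ x.S') ∧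
      ∀ (z : D) (c : C'), (z, c) ∈ y.R ↔ (z, (c : C)) ∈ x.R := by
  obtain ⟨e, he⟩ := x.exists_equiv
  obtain ⟨k, hk, hk'⟩ := exists_lift x.S'.subtype C'.subtype (AEC.emb_subtype.2 x.le')
    (AEC.emb_subtype.2 hC') fun d => ⟨⟨d, h d.2⟩, rfl⟩
  have hk2 : ∀ d : x.S', ((k d : C') : C) = d := hk'
  obtain ⟨y, hy⟩ := exists_pos_of_emb x.S.subtype (k.comp e.toEmbedding) (AEC.emb_subtype.2 x.le)
    (AEC.Emb.comp hk (AEC.Emb.of_equiv e (K.mem_of_le _ x.le).1)) x.card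
  refine ⟨y, ?_, ?_, ?_⟩
  · apply SetLike.coe_injective
    rw [y.fst, hy]
    ext z
    constructor
    · rintro ⟨_, ⟨a, rfl⟩, rfl⟩
      exact a.2
    · intro hz
      exact ⟨_, ⟨⟨z, hz⟩, rfl⟩, rfl⟩
  · intro c
    rw [← SetLike.mem_coe, y.snd, hy]
    constructor
    · rintro ⟨_, ⟨a, rfl⟩, rfl⟩
      change ((k (e a) : C') : C) ∈ x.S'
      rw [hk2]
      exact (e a).2
    · intro hc
      refine ⟨_, ⟨e.symm ⟨c, hc⟩, rfl⟩, ?_⟩
      apply Subtype.ext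
      change ((k (e (e.symm ⟨c, hc⟩)) : C') : C) = c
      rw [hk2, e.apply_symm_apply]
  · intro z c
    rw [hy]
    constructor
    · rintro ⟨a, ha⟩
      have h1 : (a : D) = z := congrArg Prod.fst ha
      have h2 : k (e a) = c := congrArg Prod.snd ha
      rw [← h1, ← h2, hk2]
      exact he a
    · intro hzc
      have h1 : z ∈ x.S := by
        rw [← SetLike.mem_coe, x.fst]
        exact ⟨_, hzc, rfl⟩
      have h2 : ((e ⟨z, h1⟩ : x.S') : C) = c := (x.pi.eq_iff _ (he ⟨z, h1⟩) _ hzc).1 rfl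
      refine ⟨⟨z, h1⟩, Prod.ext rfl (Subtype.ext ?_)⟩
      change ((k (e ⟨z, h1⟩) : C') : C) = c
      rw [hk2, h2]

end pos

/-- Free position in a strong submodel is free position. -/
theorem coH_of_sub (hK : K.IsLS ℓ) (hunb : ∀ ν, ν < κf ν ∧ K.CategoricalIn (κf ν)) (hℓ : ℓ ≤ ν')
    (hτν : τ ≤ ν') {C' : L.Substructure C} (hC' : K.le C') (hc : thr κf ν' ≤ #C')
    {A B D : Set C'} (h : CoH L τ ν' A B D) :
    CoH L τ ν' (Subtype.val '' A) (Subtype.val '' B) (Subtype.val '' D) := by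
  intro ι ζ hι hζ r m hr hm
  choose r₁ hr₁ hr₂ using hr
  choose m₁ hm₁ hm₂ using hm
  obtain ⟨r', h1, h2⟩ := h ι ζ hι hζ r₁ m₁ hr₁ hm₁
  have hζι : #(ζ ⊕ ι) ≤ ν' := mk_sum_le' (hK.1.trans hℓ) (hζ.trans hτν) (hι.trans hτν)
  have h3 := EqS.map_emb hK hunb hℓ C'.subtype (AEC.emb_subtype.2 hC') hc hζι (Sum.elim m₁ r₁)
  have h4 := EqS.map_emb hK hunb hℓ C'.subtype (AEC.emb_subtype.2 hC') hc hζι (Sum.elim m₁ r')
  have h5 : (fun i => C'.subtype (Sum.elim m₁ r₁ i)) = Sum.elim m r := by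
    funext i
    rcases i with z | i
    · exact hm₂ z
    · exact hr₂ i
  have h6 : (fun i => C'.subtype (Sum.elim m₁ r' i)) = Sum.elim m fun i => ((r' i : C') : C) := by
    funext i
    rcases i with z | i
    · exact hm₂ z
    · rfl
  rw [h5] at h3
  rw [h6] at h4
  exact ⟨fun i => r' i, fun i => ⟨_, h1 i, rfl⟩, (h3.symm.trans h2).trans h4⟩

section

variable (h₀ : BasePt K ℓ κf α θ) (hK : K.IsLS ℓ)
  (hunb : ∀ ν, ν < κf ν ∧ K.CategoricalIn (κf ν)) (hst : Stab K ℓ α (H287.thr κf))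
  (hCm : K.mem C) (hs : Sat K θ C) (hCc : #C = Order.succ θ)
  (hσ : BasePt K ℓ κf α σ) (hσθ : σ < θ)
  {t : Tpl K ℓ} {E : EM t (SuccTy σ ⊕ₗ TailTy τ)}

include h₀ hK hunb hst hCm hs hCc hσ hσθ

/-- Extension of a chart inside a strong submodel. -/
theorem exists_std_ext_in (hℓ : ℓ ≤ τ) (hτσ : Order.succ τ ≤ σ) (hsE : Sat K σ E.N)
    (x : Pos K σ E.N C) (a : SuccTy σ) (N : L.Substructure C) (hN : K.le N) (hNc : #N = θ)
    (hxN : x.S' ≤ N) (p : Set C) (hp : p ⊆ N) (hpc : #p ≤ σ) :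
    ∃ (y : Pos K σ E.N C) (b : SuccTy σ), IsStd y b ∧ x ≤ y ∧ p ⊆ y.S' ∧ y.S' ≤ N ∧ a < b := by
  have hθ : ℵ₀ ≤ θ := H541.aleph0_le_pt h₀ hK
  have hτ : ℵ₀ ≤ τ := hK.1.trans hℓ
  have hℓσ : ℓ ≤ σ := hσ.pt.lt.le
  have hF : #(TailTy τ) ≤ σ := (mk_tailTy hτ).trans_le hτσ
  have hsC : Sat K σ C := sat_low h₀ hK hunb hCm hCc hσ hσθ
  have hσC : σ ≤ #C := by
    rw [hCc]
    exact hσθ.le.trans (Order.le_succ θ)
  obtain ⟨y, b, hy, hxy, -, hpy, hab⟩ := exists_std_ext hK hℓσ hℓσ hF hCm hσC hsE hsC x ∅ p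
    (by simp) hpc a
  obtain ⟨g, ⟨e, he⟩, hg1, hg2⟩ := inst_sat h₀ hK hunb hst hCm hs hCc hN hNc
    (A := (x.S' : Set C) ∪ p) (B := (y.S' : Set C)) (union_subset hxN hp)
    ((mk_union_le _ _).trans_lt (add_lt_of_lt hθ (x.card'.trans_lt hσθ) (hpc.trans_lt hσθ)))
    (y.card'.trans_lt hσθ)
  obtain ⟨z, hz1, hz2, hz3⟩ := y.exists_move hCm e
  refine ⟨z, b, ?_, ?_, ?_, ?_, hab⟩
  · change z.S = _
    rw [hz1]
    exact hy
  · rw [Pos.le_def]
    intro q hq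
    have h1 := hz3 q (hxy hq)
    have h2 : q.2 ∈ x.S' := by
      rw [← SetLike.mem_coe, x.snd]
      exact ⟨q, hq, rfl⟩
    rw [he, hg1 _ (Or.inl h2)] at h1
    exact h1
  · intro c hc
    rw [hz2]
    refine ⟨c, hpy hc, ?_⟩
    rw [he]
    exact hg1 c (Or.inr hc)
  · intro c hc
    have h1 : c ∈ (z.S' : Set C) := hc
    rw [hz2] at h1
    obtain ⟨d, hd, rfl⟩ := h1
    rw [he]
    exact hg2 d hd

/-- **Standard chains inside a chain of strong submodels.** -/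
theorem exists_std_chain (hℓ : ℓ ≤ τ) (hτν : τ ≤ ν') (hτσ : Order.succ τ ≤ σ)
    (hthr : thr κf ν' ≤ Order.succ σ) {W : Type u} [LinearOrder W] [WellFoundedLT W] [Nonempty W]
    [NoMaxOrder W] (hW : #W ≤ σ) (N : W → L.Substructure C) (hN : Monotone N)
    (hNK : ∀ w, K.le (N w)) (hNc : ∀ w, #(N w) = θ) (p : W → Set C) (hp : ∀ w, p w ⊆ N w)
    (hpc : ∀ w, #(p w) ≤ σ) (X : Set C) (hX : X.Finite) :
    ∃ R : W → L.Substructure C, Monotone R ∧ (∀ w, K.le (R w)) ∧ (∀ w, #(R w) = σ) ∧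
      (∀ w, R w ≤ N w) ∧ (∀ w, p w ⊆ R w) ∧
      ∃ w, CoH L τ ν' X (⋃ w, (R w : Set C)) (R w : Set C) := by
  classical
  have hθ : ℵ₀ ≤ θ := H541.aleph0_le_pt h₀ hK
  have hτ : ℵ₀ ≤ τ := hK.1.trans hℓ
  have hℓσ : ℓ ≤ σ := hσ.pt.lt.le
  have hσ0 : ℵ₀ ≤ σ := hK.1.trans hℓσ
  have hF : #(TailTy τ) ≤ σ := (mk_tailTy hτ).trans_le hτσ
  have hsC : Sat K σ C := sat_low h₀ hK hunb hCm hCc hσ hσθ
  have hσC : σ ≤ #C := by
    rw [hCc]
    exact hσθ.le.trans (Order.le_succ θ)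
  obtain ⟨t⟩ := exists_tpl' hK hunb
  obtain ⟨E⟩ := exists_em t (SuccTy σ ⊕ₗ TailTy τ)
  have hsE : Sat K σ E.N := sat_em_low hσ.ab hK hℓσ (hσ.largeExt hK hunb _) t hℓσ hF E
  -- the first element
  obtain ⟨w₀, -, hw₀⟩ := WellFounded.has_min (wellFounded_lt (α := W)) Set.univ
    (⟨Classical.arbitrary W, trivial⟩ : (Set.univ : Set W).Nonempty)
  have hw₀' : ∀ w, w₀ ≤ w := fun w => not_lt.1 (hw₀ w trivial)
  obtain ⟨A₀, hA₀, hA₀N, hA₀c⟩ : ∃ A : L.Substructure C, K.le A ∧ A ≤ N w₀ ∧ #A = σ := by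
    obtain ⟨A, hA, -, hAc⟩ := exists_sub_card hK hℓσ (K.mem_of_le _ (hNK w₀)).1
      (hσθ.le.trans (hNc w₀).ge) ∅ (by simp)
    refine ⟨A.map (N w₀).subtype.toHom, K.le_trans (N w₀) A hA (hNK w₀), ?_, ?_⟩
    · rintro _ ⟨c, -, rfl⟩
      exact c.2
    · rw [← hAc]
      exact mk_image_eq (s := (A : Set (N w₀))) (N w₀).subtype.injective
  obtain ⟨i₀, -⟩ := exists_gt_of_small hσ0 (∅ : Set (SuccTy σ)) (by simp)
  obtain ⟨x₀, a₀, hx₀, hx₀A, -⟩ := exists_std_init hσ0 hℓσ hF hσ.pt.cat E A₀ hA₀ hA₀c i₀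
  have hx₀N : ∀ w, x₀.S' ≤ N w := fun w => by
    rw [hx₀A]
    exact hA₀N.trans (hN (hw₀' w))
  -- the recursion
  let P : W → (W → Pos K σ E.N C × SuccTy σ) → Prop := fun w d =>
    IsStd (d w).1 (d w).2 ∧ x₀ ≤ (d w).1 ∧ a₀ ≤ (d w).2 ∧ (d w).1.S' ≤ N w ∧
      p w ⊆ (d w).1.S' ∧ ∀ v < w, (d v).1 ≤ (d w).1 ∧ (d v).2 < (d w).2
  have hne : Nonempty (Pos K σ E.N C × SuccTy σ) := ⟨(x₀, a₀)⟩
  obtain ⟨d, hd⟩ := exists_rec (W := W) (D := Pos K σ E.N C × SuccTy σ) P (by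
    rintro w d d' hdd ⟨h1, h2, h3, h4, h5, h6⟩
    have h7 := hdd w le_rfl
    refine ⟨?_, ?_, ?_, ?_, ?_, fun v hv => ?_⟩
    · rw [← h7]; exact h1
    · rw [← h7]; exact h2
    · rw [← h7]; exact h3
    · rw [← h7]; exact h4
    · rw [← h7]; exact h5
    · rw [← h7, ← hdd v hv.le]; exact h6 v hv) (by
    intro w d hd
    let I : Type u := WithBot (Iio w)
    have hI : #I ≤ σ := by
      have h1 : #I ≤ #(Iio w) + 1 := by
        change #(Option (Iio w)) ≤ _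
        rw [mk_option]
      exact h1.trans (add_le_of_le hσ0 ((mk_subtype_le _).trans hW) (one_le_aleph0.trans hσ0))
    let c : I → Pos K σ E.N C × SuccTy σ := fun i => WithBot.recBotCoe (x₀, a₀) (fun v => d v.1) i
    have hc0 : c ⊥ = (x₀, a₀) := rfl
    have hc1 : ∀ v : Iio w, c (v : WithBot (Iio w)) = d v.1 := fun v => rfl
    have hcm : Monotone fun i => (c i).1 := by
      intro i j hij
      induction i using WithBot.recBotCoe with
      | bot =>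
        induction j using WithBot.recBotCoe with
        | bot => exact le_rfl
        | coe j => exact (hd j.1 j.2).2.1
      | coe i =>
        induction j using WithBot.recBotCoe with
        | bot => exact absurd hij (WithBot.not_coe_le_bot i)
        | coe j =>
          have h1 : i ≤ j := WithBot.coe_le_coe.1 hij
          rcases h1.eq_or_lt with h2 | h2
          · rw [h2]
          · exact ((hd j.1 j.2).2.2.2.2.2 i.1 h2).1
    have ham : Monotone fun i => (c i).2 := by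
      intro i j hij
      induction i using WithBot.recBotCoe with
      | bot =>
        induction j using WithBot.recBotCoe with
        | bot => exact le_rfl
        | coe j => exact (hd j.1 j.2).2.2.1
      | coe i =>
        induction j using WithBot.recBotCoe with
        | bot => exact absurd hij (WithBot.not_coe_le_bot i)
        | coe j =>
          have h1 : i ≤ j := WithBot.coe_le_coe.1 hij
          rcases h1.eq_or_lt with h2 | h2
          · rw [h2]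
          · exact ((hd j.1 j.2).2.2.2.2.2 i.1 h2).2.le
    have hcs : ∀ i, IsStd (c i).1 (c i).2 := by
      intro i
      induction i using WithBot.recBotCoe with
      | bot => exact hx₀
      | coe i => exact (hd i.1 i.2).1
    have hcN : ∀ i, (c i).1.S' ≤ N w := by
      intro i
      induction i using WithBot.recBotCoe with
      | bot => exact hx₀N w
      | coe i => exact ((hd i.1 i.2).2.2.2.1).trans (hN i.2.le)
    obtain ⟨y, b, hy, hyR, hb⟩ := exists_std_iUnion hσ0 hI (fun i => (c i).1) (fun i => (c i).2)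
      hcm ham hcs
    have hyN : y.S' ≤ N w := by
      intro z hz
      rw [← SetLike.mem_coe, y.snd, hyR] at hz
      obtain ⟨q, hq, rfl⟩ := hz
      obtain ⟨i, hi⟩ := mem_iUnion.1 hq
      apply hcN i
      rw [← SetLike.mem_coe, (c i).1.snd]
      exact ⟨q, hi, rfl⟩
    obtain ⟨z, b', hz, hyz, hpz, hzN, hbb⟩ := exists_std_ext_in h₀ hK hunb hst hCm hs hCc hσ hσθ
      hℓ hτσ hsE y b (N w) (hNK w) (hNc w) hyN (p w) (hp w) (hpc w)
    have hcy : ∀ i, (c i).1 ≤ y := by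
      intro i
      rw [Pos.le_def, hyR]
      exact subset_iUnion (fun i => (c i).1.R) i
    refine ⟨(z, b'), ?_⟩
    have hu : update d w (z, b') w = (z, b') := update_self _ _ _
    refine ⟨?_, ?_, ?_, ?_, ?_, fun v hv => ?_⟩
    · rw [hu]; exact hz
    · rw [hu]; exact (hcy ⊥).trans hyz
    · rw [hu]; exact (hb.1 ⟨⊥, rfl⟩ : a₀ ≤ b).trans hbb.le
    · rw [hu]; exact hzN
    · rw [hu]; exact hpz
    · rw [hu, update_of_ne hv.ne]
      exact ⟨(hcy (((⟨v, hv⟩ : Iio w) : WithBot (Iio w)))).trans hyz,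
        lt_of_le_of_lt (hb.1 ⟨((⟨v, hv⟩ : Iio w) : WithBot (Iio w)), rfl⟩) hbb⟩)
  have hdm : Monotone fun w => (d w).1 := by
    intro v w hvw
    rcases hvw.eq_or_lt with h | h
    · rw [h]
    · exact ((hd w).2.2.2.2.2 v h).1
  have hdm2 : StrictMono fun w => (d w).2 := fun v w h => ((hd w).2.2.2.2.2 v h).2
  obtain ⟨y, b, hy, hyR, hb⟩ := exists_std_iUnion hσ0 hW (fun w => (d w).1) (fun w => (d w).2)
    hdm hdm2.monotone fun w => (hd w).1
  have hdy : ∀ w, (d w).1 ≤ y := by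
    intro w
    rw [Pos.le_def, hyR]
    exact subset_iUnion (fun w => (d w).1.R) w
  have hyS : (y.S' : Set C) = ⋃ w, ((d w).1.S' : Set C) := by
    rw [y.snd, hyR, image_iUnion]
    exact iUnion_congr fun w => ((d w).1.snd).symm
  refine ⟨fun w => (d w).1.S', fun v w h => Pos.S'_mono (hdm h), fun w => (d w).1.le',
    fun w => (d w).1.card', fun w => (hd w).2.2.2.1, fun w => (hd w).2.2.2.2.1, ?_⟩
  -- the saturated submodel around everything
  obtain ⟨C', hC', hC'c, hC's, hYC'⟩ := exists_low h₀ hK hunb hCm hCc hσ hσθ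
    (Y := (y.S' : Set C) ∪ X) ((mk_union_le _ _).trans (add_le_of_le hσ0 y.card'.le
      ((lt_aleph0_iff_set_finite.2 hX).le.trans hσ0)))
  have hyC' : y.S' ≤ C' := fun c hc => hYC' (Or.inl hc)
  obtain ⟨y', hy'1, hy'2, hy'3⟩ := y.exists_restrict hC' hyC'
  have hy'std : IsStd y' b := by
    change y'.S = _
    rw [hy'1]
    exact hy
  obtain ⟨V, hV, hVf, hV'⟩ := H578.exists_base_fin hK hunb hℓ hτν hτσ hthr hsE (K.mem_of_le _ hC').1
    hC'c hC's hy'std (Subtype.val ⁻¹' X : Set C') (hX.preimage Subtype.val_injective.injOn)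
  have h1 : ∀ v ∈ V, ∃ w, v < (d w).2 := by
    intro v hv
    obtain ⟨_, ⟨w, rfl⟩, hw⟩ := (lt_isLUB_iff hb).1 (hV hv)
    exact ⟨w, hw⟩
  choose! f hf using h1
  obtain ⟨w, hw⟩ := (hVf.image f).bddAbove
  have h2 : V ⊆ Iio (d w).2 := fun v hv =>
    lt_of_lt_of_le (hf v hv) (hdm2.monotone (hw ⟨v, hv, rfl⟩))
  obtain ⟨w', hw'⟩ := exists_gt w
  have h3 := hV' (Iio (d w).2) h2 fun v hv =>
    lt_trans hv (lt_of_lt_of_le (hdm2 hw') (hb.1 ⟨w', rfl⟩))
  have h4 : thr κf ν' ≤ #C' := hthr.trans hC'c.ge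
  have h5 := coH_of_sub hK hunb (hℓ.trans hτν) hτν hC' h4 h3
  refine ⟨w, h5.mono ?_ ?_ ?_⟩
  · intro c hc
    exact ⟨⟨c, hYC' (Or.inr hc)⟩, hc, rfl⟩
  · rw [← hyS]
    intro c hc
    exact ⟨⟨c, hyC' hc⟩, (hy'2 _).2 hc, rfl⟩
  · rintro _ ⟨c, ⟨z, hz, hzc⟩, rfl⟩
    have h6 : (c : C) ∈ chA y (Iio (d w).2) := ⟨z, hz, (hy'3 z c).1 hzc⟩
    rw [chA_of_le (hd w).1 (hdy w) Subset.rfl, chA_Iio (hd w).1] at h6
    exact h6

end

end Vale.Agent.P307.R2.H650
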