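import Vale.Agent.P307.R2.H541.Iso

/-!
Size reduction of isolating sets: the free copy is given only over the small pieces of `T₁`.
-/

universe u

open Set Cardinal Function

namespace Vale.Agent.P307.R2.H650

open H541 H541.PG

variable {C : Type u} {M : PG C} {X B B' D T₁ e : Set C} {μ τ : Cardinal.{u}}

/-- **Shrinking isolating sets.** The tuple `(g e, x₀)` has a copy `(v, w)` over each piece of `T₁`
of size at most `τ`, such that `v` is reflected uniformly into a small subset of `T₁` over the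
pieces of `B' ∪ D` of size at most `μ`, and `w` is reflected into `X` over `B`. -/
theorem isol_shrink₃ (hDT : D ⊆ T₁) (heT : e ⊆ T₁) (he : #e ≤ τ) (hτ₀ : ℵ₀ ≤ τ) (hμ₀ : ℵ₀ ≤ μ)
    (hμτ : μ ≤ τ) (hμ : μ < M.χ)
    (hrefl : ∀ y ⊆ B', #y ≤ μ → ∀ q ⊆ T₁, #q ≤ τ →
      ∃ t ∈ M.G, (∀ x ∈ q, t x = x) ∧ ∀ x ∈ y, t x ∈ D)
    (hfree : ∀ g ∈ M.G, (∀ x ∈ D, g x = x) → ∀ x₀ ⊆ X, #x₀ ≤ μ → ∃ v w : C → C,
      (∀ p ⊆ T₁, #p ≤ τ → ∃ k ∈ M.G, (∀ x ∈ p, k x = x) ∧ (∀ x ∈ e, k (g x) = v x) ∧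
        ∀ x ∈ x₀, k x = w x) ∧
      (∃ q₀ ⊆ T₁, #q₀ ≤ τ ∧ ∀ q ⊆ B' ∪ D, #q ≤ μ →
        ∃ s ∈ M.G, (∀ x ∈ q, s x = x) ∧ ∀ x ∈ e, s (v x) ∈ q₀) ∧
      ∃ l ∈ M.G, (∀ x ∈ B, l x = x) ∧ ∀ x ∈ x₀, l (w x) ∈ X)
    (hTB : ∀ g ∈ M.G, (∀ y ⊆ B', #y ≤ μ → ∃ h ∈ M.G, (∀ x ∈ y, h x = x) ∧ ∀ x ∈ e, h x = g x) →
      ∃ h ∈ M.G, (∀ x ∈ B, h x = x) ∧ ∀ x ∈ e, h x = g x)
    (hTX : ∀ g ∈ M.G, (∀ y ⊆ X, #y ≤ μ → ∃ h ∈ M.G, (∀ x ∈ y, h x = x) ∧ ∀ x ∈ e, h x = g x) →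
      ∀ A ⊆ X, #A < M.χ → ∃ h ∈ M.G, (∀ x ∈ A, h x = x) ∧ ∀ x ∈ e, h x = g x)
    (hB : M.Isol B X e) : M.Isol D X e := by
  intro g hg hgD A hA hAc
  refine hTX g hg (fun x₀ hx₀ hx₀c => ?_) A hA hAc
  obtain ⟨v, w, hvw, ⟨q₀, hq₀, hq₀c, hs⟩, l, hl, hlB, hlX⟩ := hfree g hg hgD x₀ hx₀ hx₀c
  obtain ⟨k, hk, hke, hkv, hkw⟩ := hvw e heT he
  -- the free copy has the same type as `e` over `B`
  obtain ⟨h₁, hh₁, h₁B, h₁e⟩ := hTB (k * g) (M.G.mul_mem hk hg) fun y hy hyc => by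
    obtain ⟨t, ht, htq, hty⟩ := hrefl y hy hyc (q₀ ∪ e) (union_subset hq₀ heT)
      ((mk_union_le _ _).trans ((add_le_add hq₀c he).trans (add_eq_self hτ₀).le))
    obtain ⟨s, hsG, hsq, hse⟩ := hs (y ∪ t '' y) (union_subset (hy.trans subset_union_left) (by
      rintro _ ⟨x, hx, rfl⟩
      exact Or.inr (hty x hx)))
      ((mk_union_le _ _).trans ((add_le_add hyc (mk_image_le.trans hyc)).trans
        (add_eq_self hμ₀).le))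
    -- the map `t' = s⁻¹ * t * s` fixes the free copy and agrees with `t` on `y`
    have ht'e : ∀ x ∈ e, (s⁻¹ * t * s) (v x) = v x := fun x hx => by
      rw [Equiv.Perm.mul_apply, Equiv.Perm.mul_apply, htq _ (Or.inl (hse x hx)), inv_ap]
    have ht'y : ∀ x ∈ y, (s⁻¹ * t * s) x = t x := fun x hx => by
      rw [Equiv.Perm.mul_apply, Equiv.Perm.mul_apply, hsq x (Or.inl hx),
        fix_inv (hsq (t x) (Or.inr (mem_image_of_mem _ hx)))]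
    obtain ⟨k', hk', hk'y, hk'v, -⟩ := hvw (t '' y) (by
      rintro _ ⟨x, hx, rfl⟩
      exact hDT (hty x hx)) ((mk_image_le.trans hyc).trans hμτ)
    have ht' : s⁻¹ * t * s ∈ M.G := M.G.mul_mem (M.G.mul_mem (M.G.inv_mem hsG) ht) hsG
    refine ⟨(s⁻¹ * t * s)⁻¹ * (k' * g) * t, M.G.mul_mem (M.G.mul_mem (M.G.inv_mem ht')
      (M.G.mul_mem hk' hg)) ht, fun x hx => ?_, fun x hx => ?_⟩
    · rw [Equiv.Perm.mul_apply, Equiv.Perm.mul_apply, Equiv.Perm.mul_apply,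
        hgD _ (hty x hx), hk'y _ (mem_image_of_mem _ hx), ← ht'y x hx, inv_ap]
    · rw [Equiv.Perm.mul_apply, Equiv.Perm.mul_apply, Equiv.Perm.mul_apply,
        htq x (Or.inr hx), hk'v x hx, Equiv.Perm.mul_apply, hkv x hx]
      exact fix_inv (ht'e x hx)
  have hlk : ((l * k : Equiv.Perm C) '' x₀) ⊆ X := by
    rintro _ ⟨x, hx, rfl⟩
    rw [Equiv.Perm.mul_apply, hkw x hx]
    exact hlX x hx
  have hlkc : #((l * k : Equiv.Perm C) '' x₀ : Set C) < M.χ := mk_image_le.trans_lt (hx₀c.trans_lt hμ)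
  -- the free copy of `x₀` is reflected into `X`
  obtain ⟨h₂, hh₂, h₂A, h₂e⟩ := hB (l * h₁) (M.G.mul_mem hl hh₁) (fun x hx => by
    rw [Equiv.Perm.mul_apply, h₁B x hx, hlB x hx]) _ hlk hlkc
  obtain ⟨h₃, hh₃, h₃A, h₃e⟩ := hB l hl hlB _ hlk hlkc
  refine ⟨(l * k)⁻¹ * (h₂ * h₃⁻¹) * (l * k), M.G.mul_mem (M.G.mul_mem
    (M.G.inv_mem (M.G.mul_mem hl hk)) (M.G.mul_mem hh₂ (M.G.inv_mem hh₃))) (M.G.mul_mem hl hk),
    fun x hx => ?_, fun x hx => ?_⟩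
  · have h4 := h₂A _ (mem_image_of_mem (l * k : Equiv.Perm C) hx)
    have h5 := fix_inv (h₃A _ (mem_image_of_mem (l * k : Equiv.Perm C) hx))
    simp only [Equiv.Perm.mul_apply] at h4 h5 ⊢
    rw [h5, h4, mul_inv_rev]
    simp only [Equiv.Perm.mul_apply]
    rw [inv_ap, inv_ap]
  · simp only [Equiv.Perm.mul_apply, mul_inv_rev]
    rw [hke x hx, ← h₃e x hx, inv_ap, h₂e x hx, Equiv.Perm.mul_apply, h₁e x hx,
      Equiv.Perm.mul_apply, inv_ap, inv_ap]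

end Vale.Agent.P307.R2.H650
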