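import Vale.Agent.P307.R2.H83.Scaf

/-!
Copies of the small pieces of a set inside the set, over a closed trace of a model, from copies in
a chart.
-/

universe u v

open Set Cardinal Function

namespace Vale.Agent.P307.R2.H650

open Vale.Agent.P307.R2.H541 Vale.Agent.P307.R2.H541.PG Vale.Agent.P307.R2.H533

variable {ι : Type v} {C : Type u} {M : PG C} {F : Finset (Finset ι)} {A P : Finset ι → Set C}
  {X X' Y R T H N : Set C} {μ β : Cardinal.{u}}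

/-- The small pieces of the enlarged family move into the family over a small part of `N`. -/
theorem peel_of_keyC (hK : Blk.KeyC M A P F N) (hRN : R ⊆ N) (hR : #R < M.χ) (hμ : μ < M.χ) :
    ∀ y ⊆ iun P F, #y ≤ μ → ∃ l ∈ M.G, (∀ a ∈ R, l a = a) ∧ ∀ a ∈ y, l a ∈ iun A F := by
  intro y hy hyc
  obtain ⟨l, hl, h1, h2⟩ := hK y hy (hyc.trans_lt hμ) R hRN hR
  refine ⟨l, hl, h1, fun a ha => ?_⟩
  obtain ⟨v, hv, hav⟩ := hy ha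
  exact ⟨v, hv, h2 v hv a ha hav⟩

/-- The copies in a chart give copies in the set. -/
theorem copy_of_out (hTH : T ⊆ H) (hTR : T ⊆ R)
    (hout : ∀ x ⊆ X, #x ≤ μ → ∃ k ∈ M.G, (∀ a ∈ H, k a = a) ∧ (∀ a ∈ x, k a ∈ Y) ∧
      ∀ q ⊆ R, #q ≤ β → ∃ s ∈ M.G, (∀ a ∈ q, s a = a) ∧ ∀ a ∈ x, s (k a) ∈ H)
    (hnorm : ∀ y ⊆ Y, #y ≤ μ → ∃ h ∈ M.G, (∀ a ∈ R, h a = a) ∧ ∀ a ∈ y, h a ∈ X')
    (hpeel : ∀ y ⊆ X', #y ≤ μ → ∃ l ∈ M.G, (∀ a ∈ R, l a = a) ∧ ∀ a ∈ y, l a ∈ X)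
    (hmove : ∀ p ⊆ H, #p ≤ μ → ∀ q ⊆ R, #q ≤ β →
      ∃ m ∈ M.G, (∀ a ∈ q, m a = a) ∧ ∀ a ∈ p, m a ∈ T) :
    ∀ x ⊆ X, #x ≤ μ → ∃ k ∈ M.G, (∀ a ∈ T, k a = a) ∧ (∀ a ∈ x, k a ∈ X) ∧
      ∀ q ⊆ R, #q ≤ β → ∃ s ∈ M.G, (∀ a ∈ q, s a = a) ∧ ∀ a ∈ x, s (k a) ∈ T := by
  intro x hx hxc
  obtain ⟨k, hk, hkH, hkY, hks⟩ := hout x hx hxc
  obtain ⟨h, hh, hhR, hhX⟩ := hnorm (k '' x) (by
    rintro _ ⟨a, ha, rfl⟩
    exact hkY a ha) (mk_image_le.trans hxc)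
  obtain ⟨l, hl, hlR, hlX⟩ := hpeel (h '' (k '' x)) (by
    rintro _ ⟨a, ha, rfl⟩
    exact hhX a ha) (mk_image_le.trans (mk_image_le.trans hxc))
  refine ⟨l * (h * k), M.G.mul_mem hl (M.G.mul_mem hh hk), fun a ha => ?_, fun a ha => ?_, ?_⟩
  · rw [Equiv.Perm.mul_apply, Equiv.Perm.mul_apply, hkH a (hTH ha), hhR a (hTR ha),
      hlR a (hTR ha)]
  · rw [Equiv.Perm.mul_apply, Equiv.Perm.mul_apply]
    exact hlX _ (mem_image_of_mem h (mem_image_of_mem k ha))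
  · intro q hq hqc
    obtain ⟨s, hs, hsq, hsx⟩ := hks q hq hqc
    obtain ⟨m, hm, hmq, hmT⟩ := hmove ((fun a => s (k a)) '' x) (by
      rintro _ ⟨a, ha, rfl⟩
      exact hsx a ha) (mk_image_le.trans hxc) q hq hqc
    refine ⟨(m * s) * (h⁻¹ * l⁻¹), M.G.mul_mem (M.G.mul_mem hm hs)
      (M.G.mul_mem (M.G.inv_mem hh) (M.G.inv_mem hl)), fun a ha => ?_, fun a ha => ?_⟩
    · have h1 : l⁻¹ a = a := by
        rw [Equiv.Perm.inv_eq_iff_eq]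
        exact (hlR a (hq ha)).symm
      have h2 : h⁻¹ a = a := by
        rw [Equiv.Perm.inv_eq_iff_eq]
        exact (hhR a (hq ha)).symm
      rw [Equiv.Perm.mul_apply, Equiv.Perm.mul_apply, Equiv.Perm.mul_apply, h1, h2, hsq a ha,
        hmq a ha]
    · have h1 : (h⁻¹ * l⁻¹) ((l * (h * k)) a) = k a := by
        rw [Equiv.Perm.mul_apply, Equiv.Perm.mul_apply, Equiv.Perm.mul_apply,
          Equiv.Perm.inv_eq_iff_eq, Equiv.Perm.inv_eq_iff_eq]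
      rw [Equiv.Perm.mul_apply, h1, Equiv.Perm.mul_apply]
      exact hmT _ ⟨a, ha, rfl⟩

/-- The inverse of a map which extends to small pieces over `R`. -/
theorem norm_of_le {f : C → C} (hf : f '' X' = Y)
    (h1 : ∀ E ⊆ X', #E ≤ μ → ∃ h ∈ M.G, (∀ a ∈ R, h a = a) ∧ ∀ a ∈ E, h a = f a) :
    ∀ y ⊆ Y, #y ≤ μ → ∃ h ∈ M.G, (∀ a ∈ R, h a = a) ∧ ∀ a ∈ y, h a ∈ X' := by
  classical
  intro y hy hyc
  have h2 : ∀ a : y, ∃ b ∈ X', f b = a := fun a => by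
    have h3 := hy a.2
    rw [← hf] at h3
    exact h3
  choose g hg hfg using h2
  obtain ⟨h, hh, hR, hE⟩ := h1 (range g) (by
    rintro _ ⟨a, rfl⟩
    exact hg a) (mk_range_le.trans hyc)
  refine ⟨h⁻¹, M.G.inv_mem hh, fun a ha => ?_, fun a ha => ?_⟩
  · rw [Equiv.Perm.inv_eq_iff_eq]
    exact (hR a ha).symm
  · have h3 : h (g ⟨a, ha⟩) = a := by
      rw [hE _ ⟨⟨a, ha⟩, rfl⟩, hfg]
    have h4 : h⁻¹ a = g ⟨a, ha⟩ := by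
      rw [Equiv.Perm.inv_eq_iff_eq]
      exact h3.symm
    rw [h4]
    exact hg _

end Vale.Agent.P307.R2.H650
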