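import Vale.Agent.P307.R2.H650.ShrFree

/-!
Size reduction of isolating sets from free copies of the small pieces of `X` inside `X`.
-/

set_option linter.unusedSectionVars false

universe u v w

open FirstOrder Cardinal Set

namespace Vale.Agent.P307.R2.H650

open Vale.Agent.P307 Vale.Agent.P307.H304 Vale.Agent.P307.R2.H287 Vale.Agent.P307.R2.H1
  Vale.Agent.P307.R2.H971 Vale.Agent.P307.R2.H804
  Vale.Agent.P307.R2.H541 Language.Structure Language.Substructure Function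

variable {L : Language.{u, u}} {K : AEC L} {ℓ θ τ τ₁ τ₂ μ ν ρ : Cardinal.{u}}
  {κf α : Cardinal.{u} → Cardinal.{u}} {C : Type u} [L.Structure C]

section

variable (h₀ : BasePt K ℓ κf α θ) (hK : K.IsLS ℓ)
  (hunb : ∀ ν, ν < κf ν ∧ K.CategoricalIn (κf ν)) (hst : Stab K ℓ α (H287.thr κf))
  (hCm : K.mem C) (hs : Sat K θ C) (hCc : #C = Order.succ θ)

include h₀ hK hunb hst hCm hs hCc

/-- **Shrinking isolating sets.** `T ≤ R ≤ N` are strong submodels of sizes `τ₁ ≤ τ₂ < θ`,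
`e ⊆ T`, `D ⊆ T`, and the set `B ⊆ R`, of size less than `τ₂`, isolates the type of `e` over `X`.
If the small pieces of `X` have copies over `T` in `X` which are reflected into `T` over the small
pieces of `R`, and the small pieces of `B'` are reflected into `D` over the small pieces of `T`,
then `D` isolates the type of `e` over `X`. -/
theorem pg_isol_shrink (hτ₁ : BasePt K ℓ κf α τ₁) (hτ₂ : BasePt K ℓ κf α τ₂) (h12 : τ₁ ≤ τ₂)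
    (hτ₂θ : τ₂ < θ) (hl : Lvl ℓ κf α ν μ ρ τ₁) (hα : α ν ≤ μ)
    {N T R : L.Substructure C} (hN : K.le N) (hNc : #N = θ) (hT : K.le T) (hTc : #T = τ₁)
    (hR : K.le R) (hRc : #R = τ₂) (hTR : T ≤ R) (hRN : R ≤ N)
    {X B B' D e : Set C} (hDT : D ⊆ T) (heT : e ⊆ T) (hB'N : B' ⊆ N)
    (hBR : B ⊆ R) (hBc : #B < τ₂) {μ₀ : Cardinal.{u}} (hμ₀ : ℵ₀ ≤ μ₀) (heν : #e ≤ ν)
    (hμν : μ₀ ≤ ν)
    (hcopy : ∀ x₀ ⊆ X, #x₀ ≤ μ₀ → ∃ k ∈ autG L C, (∀ a ∈ T, k a = a) ∧ (∀ a ∈ x₀, k a ∈ X) ∧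
      ∀ q ⊆ (R : Set C), #q ≤ limB κf μ → ∃ s ∈ autG L C, (∀ a ∈ q, s a = a) ∧
        ∀ a ∈ x₀, s (k a) ∈ T)
    (hrefl : ∀ y ⊆ B', #y ≤ μ₀ → ∀ q ⊆ (T : Set C), #q ≤ ρ →
      ∃ t ∈ autG L C, (∀ x ∈ q, t x = x) ∧ ∀ x ∈ y, t x ∈ D)
    (hTB : ∀ g ∈ autG L C, (∀ y ⊆ B', #y ≤ μ₀ →
      ∃ h ∈ autG L C, (∀ x ∈ y, h x = x) ∧ ∀ x ∈ e, h x = g x) →
      ∃ h ∈ autG L C, (∀ x ∈ B, h x = x) ∧ ∀ x ∈ e, h x = g x)
    (hTX : ∀ g ∈ autG L C, (∀ y ⊆ X, #y ≤ μ₀ →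
      ∃ h ∈ autG L C, (∀ x ∈ y, h x = x) ∧ ∀ x ∈ e, h x = g x) →
      ∀ A ⊆ X, #A < θ → ∃ h ∈ autG L C, (∀ x ∈ A, h x = x) ∧ ∀ x ∈ e, h x = g x)
    (hB : (pg h₀ hK hunb hst hCm hs hCc).Isol B X e) :
    (pg h₀ hK hunb hst hCm hs hCc).Isol D X e := by
  classical
  have hμ := hl.hμ hK
  have hν : ℵ₀ ≤ ν := hK.1.trans hl.hℓ
  have hνρ : ν ≤ ρ := hl.νμ.trans (hl.μρ hunb)
  have hρτ := hl.lt
  refine isol_shrink₃ (M := pg h₀ hK hunb hst hCm hs hCc) (T₁ := (T : Set C)) (B' := B')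
    (μ := μ₀) (τ := ρ) hDT heT (heν.trans hνρ) (hν.trans hνρ) hμ₀ (hμν.trans hνρ)
    ((hμν.trans hνρ).trans_lt (hρτ.trans_le (h12.trans hτ₂θ.le))) hrefl ?_ hTB hTX hB
  intro g hg hgD x₀ hx₀ hx₀c
  obtain ⟨k₀, hk₀, hk₀T, hk₀X, hk₀s⟩ := hcopy x₀ hx₀ hx₀c
  obtain ⟨v, w, h1, ⟨q₀, hq₀, hq₀c, h2⟩, h3⟩ := exists_free_copy h₀ hK hunb hst hCm hs hCc hτ₁ hτ₂
    h12 hτ₂θ hl hα hN hNc hT hTc hR hRc hTR hRN (ι := e) (κ := x₀)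
    (mk_sum_le' hν heν (hx₀c.trans hμν)) (fun a => k₀ (g a)) (fun a => k₀ a) (by
      intro q hq hqc
      obtain ⟨s, hs1, hs2, hs3⟩ := hk₀s q hq hqc
      exact ⟨s, hs1, hs2, fun i => hs3 i i.2⟩)
  refine ⟨fun x => if hx : x ∈ e then v ⟨x, hx⟩ else x,
    fun x => if hx : x ∈ x₀ then w ⟨x, hx⟩ else x, ?_, ⟨q₀, hq₀, hq₀c, ?_⟩, ?_⟩
  · intro p hp hpc
    obtain ⟨k, hk, hk1, hk2, hk3⟩ := h1 p hp (hpc.trans_lt hρτ)
    refine ⟨k * k₀, mul_mem hk hk₀, fun x hx => ?_, fun x hx => ?_, fun x hx => ?_⟩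
    · rw [Equiv.Perm.mul_apply, hk₀T x (hp hx), hk1 x hx]
    · simp only [dif_pos hx]
      rw [Equiv.Perm.mul_apply]
      exact hk2 ⟨x, hx⟩
    · simp only [dif_pos hx]
      rw [Equiv.Perm.mul_apply]
      exact hk3 ⟨x, hx⟩
  · intro q hq hqc
    obtain ⟨s, hs1, hs2, hs3⟩ := h2 q (hq.trans (union_subset hB'N fun c hc =>
      hRN (hTR (hDT hc)))) (hqc.trans hμν)
    refine ⟨s, hs1, hs2, fun x hx => ?_⟩
    simp only [dif_pos hx]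
    exact hs3 ⟨x, hx⟩
  · obtain ⟨l, hl1, hl2, hl3⟩ := h3 B hBR hBc
    refine ⟨l, hl1, hl2, fun x hx => ?_⟩
    simp only [dif_pos hx]
    rw [hl3 ⟨x, hx⟩]
    exact hk₀X x hx

end

end Vale.Agent.P307.R2.H650
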